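import Vale.Agent.P209.Defs
import Mathlib.Analysis.InnerProductSpace.PiL2

/-!
# P209, necessity of the two conditions: Gromov's two-ball theorem by generating functions

`V` is a finite dimensional complex inner product space (`ℂⁿ⁺¹`), `om u v = Im ⟪u, v⟫` is the
symplectic form `∑ dx ∧ dy`.  A Hamiltonian function `G` and its field `X` are related by
`dG_z = om (X z)`; one step of the midpoint scheme of `G` is `z' - z = X ((z + z') / 2)`.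
-/

namespace Vale.Agent.P209.H710.Nec

open scoped ContDiff

noncomputable section

section Form

variable {V : Type*} [NormedAddCommGroup V] [InnerProductSpace ℂ V]

/-- The symplectic form `Im ⟪u, v⟫`, as a continuous real linear functional of `v`. -/
def om (u : V) : V →L[ℝ] ℝ :=
  Complex.imCLM.comp ((innerSL ℂ u).restrictScalars ℝ)

theorem om_apply (u v : V) : om u v = (inner ℂ u v : ℂ).im := rfl

end Form

/-! ## Index (`ℤ/2`-genus) -/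

/-- The symmetric set `A` has index at most `k`: there is an odd continuous map without zeros
from `A` to `ℝᵏ`. -/
def Idx {W : Type*} [TopologicalSpace W] [Neg W] (A : Set W) (k : ℕ) : Prop :=
  ∃ g : W → EuclideanSpace ℝ (Fin k), ContinuousOn g A ∧ ∀ x ∈ A, g (-x) = -g x ∧ g x ≠ 0

/-! ## Generating functions of chains of midpoint steps -/

section Gen

variable (V : Type*) [NormedAddCommGroup V] [InnerProductSpace ℂ V]

/-- The domain of the generating function of a chain of `M + 1` steps: `(w, P, Q)`. -/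
abbrev W (M : ℕ) : Type _ := V × (Fin M → V) × (Fin M → V)

/-- The domain of the sum of two generating functions with common first variable:
`(w, (P, Q), (P', Q'))`. -/
abbrev WS (M : ℕ) : Type _ := V × ((Fin M → V) × (Fin M → V)) × ((Fin M → V) × (Fin M → V))

variable {V}

/-- The midpoint of the `j`-th step of the chain. -/
def mid {M : ℕ} (x : W V M) (j : ℕ) : V :=
  x.1 + ∑ k : Fin M, (if j ≤ (k : ℕ) then x.2.1 k else 0) +
    ∑ k : Fin M, (if j = (k : ℕ) + 1 then x.2.2 k else 0)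

/-- The generating function of a chain with step functions `f 0, …, f M`. -/
def FF {M : ℕ} (f : ℕ → V → ℝ) (x : W V M) : ℝ :=
  2 * ∑ k : Fin M, om (x.2.1 k) (x.2.2 k) + ∑ j ∈ Finset.range (M + 1), f j (mid x j)

/-- The first component of the (pseudo-)gradient of `FF`: the end of the chain minus its start. -/
def alp {M : ℕ} (X : ℕ → V → V) (x : W V M) : V :=
  ∑ j ∈ Finset.range (M + 1), X j (mid x j)

/-- The `P`-component of the gradient. -/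
def bet {M : ℕ} (X : ℕ → V → V) (x : W V M) (k : Fin M) : V :=
  ∑ j ∈ Finset.range ((k : ℕ) + 1), X j (mid x j) - (2 : ℂ) • x.2.2 k

/-- The `Q`-component of the gradient. -/
def gam {M : ℕ} (X : ℕ → V → V) (x : W V M) (k : Fin M) : V :=
  (2 : ℂ) • x.2.1 k + X ((k : ℕ) + 1) (mid x ((k : ℕ) + 1))

/-- The derivative of `FF` at `x`. -/
def DD {M : ℕ} (X : ℕ → V → V) (x : W V M) : W V M →L[ℝ] ℝ :=
  (om (alp X x)).comp (ContinuousLinearMap.fst ℝ V ((Fin M → V) × (Fin M → V))) +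
  ∑ k, (om (bet X x k)).comp ((ContinuousLinearMap.proj (R := ℝ) (φ := fun _ : Fin M => V) k).comp
    ((ContinuousLinearMap.fst ℝ (Fin M → V) (Fin M → V)).comp
      (ContinuousLinearMap.snd ℝ V ((Fin M → V) × (Fin M → V))))) +
  ∑ k, (om (gam X x k)).comp ((ContinuousLinearMap.proj (R := ℝ) (φ := fun _ : Fin M => V) k).comp
    ((ContinuousLinearMap.snd ℝ (Fin M → V) (Fin M → V)).comp
      (ContinuousLinearMap.snd ℝ V ((Fin M → V) × (Fin M → V)))))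

/-- The two parts of a point of `WS`. -/
def prt₁ {M : ℕ} (x : WS V M) : W V M := (x.1, x.2.1)

/-- The two parts of a point of `WS`. -/
def prt₂ {M : ℕ} (x : WS V M) : W V M := (x.1, x.2.2)

/-- The step functions of `F_j`: `N` steps `(τ / N) G` and then rotation steps `-κ ‖·‖²`. -/
def stp (N : ℕ) (G : V → ℝ) (τ κ : ℝ) (j : ℕ) (z : V) : ℝ :=
  if j < N then τ / N * G z else -κ * ‖z‖ ^ 2

/-- The fields of the steps. -/
def stX (N : ℕ) (X : V → V) (τ κ : ℝ) (j : ℕ) (z : V) : V :=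
  if j < N then ((τ / N : ℝ) : ℂ) • X z else ((2 * κ : ℝ) * Complex.I : ℂ) • z

end Gen

/-! ## The Hamiltonian of one ball -/

section Ham

variable {V : Type*} [NormedAddCommGroup V] [InnerProductSpace ℂ V]

/-- The factor `exp (-2 π i t)`. -/
def ph (t : ℝ) : ℂ := Complex.exp (-(2 * Real.pi * t : ℝ) * Complex.I)

/-- What the proof needs about the lifted Hamiltonian `G` of one ball: `l` is the linear
functional `Z ↦ Z₀`, `Om` the open cone over the image of the ball, `c` the value of the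
Hamiltonian at the centre of the ball, `p` the (unit) lift of the image of the centre. -/
structure BallHam (l : V →L[ℂ] ℂ) (Om : Set V) (c : ℝ) where
  /-- the Hamiltonian -/
  G : V → ℝ
  /-- its field -/
  X : V → V
  /-- Lipschitz constant -/
  K : ℝ
  /-- lift of the centre -/
  p : V
  hG : ∀ z, HasFDerivAt G (om (X z)) z
  hX : ∀ z w, ‖X z - X w‖ ≤ K * ‖z - w‖
  X_smul : ∀ (a : ℂ) (z : V), X (a • z) = a • X z
  G_smul : ∀ (a : ℂ) (z : V), G (a • z) = ‖a‖ ^ 2 * G z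
  X_off : ∀ z, z ∉ Om → X z = 0
  flow : ∀ z : V, z ≠ 0 → ∀ τ : ℝ, 0 < τ → τ ≤ 1 → ∃ Y : ℝ → V, Y 0 = z ∧
    (∀ t ∈ Set.Icc (0 : ℝ) 1, HasDerivWithinAt Y ((τ : ℂ) • X (Y t)) (Set.Icc 0 1) t) ∧
    (z ∈ Om → Y 1 ∈ Om) ∧ ∀ s : ℝ, 0 < s → s < c → Y 1 ≠ ph (τ * s) • z
  crit : ∀ z : V, z ≠ 0 → ∀ s : ℝ, 0 < s → s < c →
    X z ≠ (-(2 * Real.pi * s : ℝ) * Complex.I : ℂ) • z
  upper : ∃ C : ℝ, ∀ z, G z ≤ C * ‖l z‖ ^ 2
  norm_p : ‖p‖ = 1
  lower : ∀ c' : ℝ, c' < c → ∃ C : ℝ, ∀ z,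
    Real.pi * c' * ‖z‖ ^ 2 - C * ‖z - (inner ℂ p z : ℂ) • p‖ ^ 2 ≤ G z

end Ham

/-! ## The lift of a Hamiltonian function on the open unit ball of `ℂⁿ` -/

section Lift

variable {V : Type*} [NormedAddCommGroup V] [InnerProductSpace ℂ V] {n : ℕ}

/-- `e` identifies the inner product space `V` with `ℂ × ℂⁿ`. -/
def IsUni (e : V ≃ₗ[ℂ] ℂ × (Fin n → ℂ)) : Prop :=
  ∀ z w : V, (inner ℂ z w : ℂ) = (starRingEnd ℂ) (e z).1 * (e w).1 +
    ∑ j, (starRingEnd ℂ) ((e z).2 j) * (e w).2 j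

/-- The chart `Z ↦ Z' conj (phase Z₀) / (√π |Z|)`. -/
def chart (e : V ≃ₗ[ℂ] ℂ × (Fin n → ℂ)) (z : V) : Fin n → ℂ :=
  fun j => (e z).2 j * (starRingEnd ℂ) (e z).1 / ((‖(e z).1‖ * (Real.sqrt Real.pi * ‖z‖) : ℝ) : ℂ)

/-- The cone over a subset of `ℂⁿ`. -/
def cone (e : V ≃ₗ[ℂ] ℂ × (Fin n → ℂ)) (S : Set (Fin n → ℂ)) : Set V :=
  {z | (e z).1 ≠ 0 ∧ chart e z ∈ S}

/-- The square of the Euclidean norm. -/
def nsq (y : Fin n → ℂ) : ℝ := ∑ j, ‖y j‖ ^ 2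

/-- The radius function `√(1/π - |y|²)`. -/
def rad (y : Fin n → ℂ) : ℝ := Real.sqrt (1 / Real.pi - nsq y)

/-- The section `y ↦ (√(1/π - |y|²), y)` of the chart. -/
def sig (e : V ≃ₗ[ℂ] ℂ × (Fin n → ℂ)) (y : Fin n → ℂ) : V := e.symm ((rad y : ℂ), y)

/-- The derivative of the section at `y`, applied to `v`. -/
def dsig (e : V ≃ₗ[ℂ] ℂ × (Fin n → ℂ)) (y v : Fin n → ℂ) : V :=
  e.symm (((-(∑ j, ((starRingEnd ℂ) (y j) * v j).re) / rad y : ℝ) : ℂ), v)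

/-- The lift of the function `H`. -/
def lift (e : V ≃ₗ[ℂ] ℂ × (Fin n → ℂ)) (H : (Fin n → ℂ) → ℝ) (z : V) : ℝ :=
  if (e z).1 = 0 then 0 else Real.pi * ‖z‖ ^ 2 * H (chart e z)

/-- `Y` is the Hamiltonian vector field of `H` (on all of `ℂⁿ`). -/
def IsField (H : (Fin n → ℂ) → ℝ) (Y : (Fin n → ℂ) → (Fin n → ℂ)) : Prop :=
  ∀ y v, omega (Y y) v = fderiv ℝ H y v

/-- The vertical speed of the lifted field at `sig y`, where `Y` is the value of the field of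
`H` at `y`. -/
def vert (e : V ≃ₗ[ℂ] ℂ × (Fin n → ℂ)) (H : (Fin n → ℂ) → ℝ) (y Y : Fin n → ℂ) : ℝ :=
  -Real.pi * (2 * H y - (inner ℂ (Complex.I • dsig e y Y) (sig e y) : ℂ).re)

end Lift

/-! ## Statements of the rows -/

universe u

/-- Row A1. -/
def A1_statement : Prop := ∀ (W : Type u) [NormedAddCommGroup W] [NormedSpace ℝ W]
    [FiniteDimensional ℝ W] (A : Set W) (E : Submodule ℝ W) (k : ℕ),
    (∀ x ∈ E, x ≠ 0 → x ∈ A) → Idx A k → Module.finrank ℝ E ≤ k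

/-- Row A2. -/
def A2_statement : Prop := ∀ (W : Type u) [NormedAddCommGroup W] [NormedSpace ℝ W]
    [FiniteDimensional ℝ W] (A : Set W) (E : Submodule ℝ W) (k : ℕ),
    (∀ x ∈ A, x ∉ E) → Module.finrank ℝ W ≤ Module.finrank ℝ E + k → Idx A k

/-- Row A3. -/
def A3_statement : Prop := ∀ (W W₁ W₂ : Type u) [NormedAddCommGroup W] [NormedSpace ℝ W]
    [NormedAddCommGroup W₁] [NormedSpace ℝ W₁] [NormedAddCommGroup W₂] [NormedSpace ℝ W₂]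
    (π₁ : W →L[ℝ] W₁) (π₂ : W →L[ℝ] W₂) (F₁ : W₁ → ℝ) (F₂ : W₂ → ℝ) (k₁ k₂ : ℕ),
    Continuous F₁ → Continuous F₂ → (∀ x, F₁ (-x) = F₁ x) → (∀ x, F₂ (-x) = F₂ x) →
    Idx {x | F₁ x < 0} k₁ → Idx {x | F₂ x < 0} k₂ →
    Idx {x | F₁ (π₁ x) + F₂ (π₂ x) < 0} (k₁ + k₂)

/-- Row B: invariance of the index along a path without critical points. -/
def B_statement : Prop := ∀ (W : Type u) [NormedAddCommGroup W] [NormedSpace ℝ W]
    [FiniteDimensional ℝ W] (a b : ℝ) (F : ℝ → W → ℝ) (D : ℝ → W → (W →L[ℝ] ℝ))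
    (Γ : ℝ → W → W), a ≤ b →
    ContinuousOn (fun q : ℝ × W => F q.1 q.2) (Set.Icc a b ×ˢ Set.univ) →
    ContinuousOn (fun q : ℝ × W => D q.1 q.2) (Set.Icc a b ×ˢ Set.univ) →
    ContinuousOn (fun q : ℝ × W => Γ q.1 q.2) (Set.Icc a b ×ˢ Set.univ) →
    (∀ τ ∈ Set.Icc a b, ∀ x, HasFDerivAt (F τ) (D τ x) x) →
    (∀ τ ∈ Set.Icc a b, ∀ (c : ℝ) x, F τ (c • x) = c ^ 2 * F τ x) →
    (∀ τ ∈ Set.Icc a b, ∀ (c : ℝ) x, Γ τ (c • x) = c • Γ τ x) →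
    (∀ τ ∈ Set.Icc a b, ∀ x, x ≠ 0 → 0 < D τ x (Γ τ x)) →
    ∀ k, Idx {x | F a x < 0} k ↔ Idx {x | F b x < 0} k

/-- Row C1: derivative of the generating function. -/
def C1_statement : Prop := ∀ (V : Type u) [NormedAddCommGroup V] [InnerProductSpace ℂ V]
    (M : ℕ) (f : ℕ → V → ℝ) (X : ℕ → V → V), (∀ j z, HasFDerivAt (f j) (om (X j z)) z) →
    ∀ x : W V M, HasFDerivAt (FF (M := M) f) (DD X x) x

/-- Row C2: fibre critical points are chains. -/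
def C2_statement : Prop := ∀ (V : Type u) [NormedAddCommGroup V] [InnerProductSpace ℂ V]
    (M : ℕ) (X : ℕ → V → V) (x : W V M), (∀ k, bet X x k = 0) → (∀ k, gam X x k = 0) →
    ∃ z : ℕ → V, (∀ j, j < M + 1 → z (j + 1) - z j = X j (mid x j)) ∧
      (∀ j, j < M + 1 → z j + z (j + 1) = (2 : ℂ) • mid x j) ∧
      z (M + 1) - z 0 = alp X x ∧ z 0 + z (M + 1) = (2 : ℂ) • x.1

/-- Row D1: `F_τ` is positive on a large subspace for small `τ`. -/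
def D1_statement : Prop := ∀ (V : Type u) [NormedAddCommGroup V] [InnerProductSpace ℂ V]
    [FiniteDimensional ℂ V] (l : V →L[ℂ] ℂ) (Om : Set V) (c : ℝ) (A : BallHam l Om c)
    (a : ℝ) (N : ℕ), 0 < a → a < c → c < 1 → 0 < N →
    ∃ τ₀ : ℝ, 0 < τ₀ ∧ τ₀ ≤ 1 ∧ ∃ E : Submodule ℝ (W V (N + 1)),
      Module.finrank ℝ E = (N + 1) * Module.finrank ℝ V + 2 ∧
      ∀ x ∈ E, x ≠ 0 → 0 < FF (stp N A.G τ₀ (Real.tan (Real.pi * a * τ₀ / 2))) x

/-- Row D2: `S_τ` is negative on a large subspace for small `τ`.  The rotation angles are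
`2 π a (1 + τ s) / (1 + s)` and `2 π b (1 + τ s) / (1 + s)`, where `a + b = 1 + s`. -/
def D2_statement : Prop := ∀ (V : Type u) [NormedAddCommGroup V] [InnerProductSpace ℂ V]
    [FiniteDimensional ℂ V] (l : V →L[ℂ] ℂ) (Om₁ Om₂ : Set V) (c₁ c₂ : ℝ)
    (A : BallHam l Om₁ c₁) (B : BallHam l Om₂ c₂) (a b s : ℝ) (N : ℕ), l ≠ 0 →
    0 < a → a < 1 → 0 < b → b < 1 → 0 < s → a + b = 1 + s → 0 < N →
    ∃ τ₀ : ℝ, 0 < τ₀ ∧ τ₀ ≤ 1 ∧ ∃ E : Submodule ℝ (WS V (N + 1)),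
      Module.finrank ℝ E + 2 = 2 * (N + 1) * Module.finrank ℝ V + 2 * Module.finrank ℝ V ∧
      ∀ x ∈ E, x ≠ 0 →
        FF (stp N A.G τ₀ (Real.tan (Real.pi * a * ((1 + τ₀ * s) / (1 + s)) / 2))) (prt₁ x) +
        FF (stp N B.G τ₀ (Real.tan (Real.pi * b * ((1 + τ₀ * s) / (1 + s)) / 2))) (prt₂ x) < 0

/-- Row E: no closed chain if the number of steps is large. -/
def E_statement : Prop := ∀ (V : Type u) [NormedAddCommGroup V] [InnerProductSpace ℂ V]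
    [FiniteDimensional ℂ V] (X₁ X₂ : V → V) (K s : ℝ), 0 < s → s < 1 →
    (∀ z w, ‖X₁ z - X₁ w‖ ≤ K * ‖z - w‖) → (∀ z w, ‖X₂ z - X₂ w‖ ≤ K * ‖z - w‖) →
    (∀ (a : ℂ) (z : V), X₁ (a • z) = a • X₁ z) → (∀ (a : ℂ) (z : V), X₂ (a • z) = a • X₂ z) →
    (∀ z, (inner ℂ (X₁ z) z : ℂ).re = 0) → (∀ z, (inner ℂ (X₂ z) z : ℂ).re = 0) →
    (∀ z, z ≠ 0 → X₁ z + X₂ z ≠ (-(2 * Real.pi * s : ℝ) * Complex.I : ℂ) • z) →
    (∀ z, z ≠ 0 → ∀ τ : ℝ, 0 < τ → τ ≤ 1 → ∃ Y₁ Y₂ : ℝ → V, Y₁ 0 = z ∧ Y₂ 0 = Y₁ 1 ∧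
      (∀ t ∈ Set.Icc (0 : ℝ) 1, HasDerivWithinAt Y₁ ((τ : ℂ) • X₁ (Y₁ t)) (Set.Icc 0 1) t) ∧
      (∀ t ∈ Set.Icc (0 : ℝ) 1, HasDerivWithinAt Y₂ ((τ : ℂ) • X₂ (Y₂ t)) (Set.Icc 0 1) t) ∧
      Y₂ 1 ≠ ph (τ * s) • z) →
    ∃ N₀ : ℕ, ∀ N ≥ N₀, 0 < N → ∀ τ : ℝ, 0 < τ → τ ≤ 1 → ∀ z z' : ℕ → V,
      (∀ i < N, z (i + 1) - z i = ((τ / N : ℝ) : ℂ) • X₁ ((1 / 2 : ℂ) • (z i + z (i + 1)))) →
      (∀ i < N, z' (i + 1) - z' i = ((τ / N : ℝ) : ℂ) • X₂ ((1 / 2 : ℂ) • (z' i + z' (i + 1)))) →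
      z' 0 = z N → z' N = ph (τ * s) • z 0 → z 0 = 0

/-- Row G1: the lifted Hamiltonian and its field. -/
def G1_statement : Prop := ∀ (V : Type u) [NormedAddCommGroup V] [InnerProductSpace ℂ V]
    [FiniteDimensional ℂ V] (n : ℕ) (e : V ≃ₗ[ℂ] ℂ × (Fin n → ℂ)) (_ : IsUni e)
    (H : (Fin n → ℂ) → ℝ) (Y : (Fin n → ℂ) → (Fin n → ℂ)), ContDiff ℝ ∞ H →
    HasCompactSupport H → tsupport H ⊆ openBall n 1 → IsField H Y →
    ∃ (X : V → V) (K C : ℝ),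
      (∀ z, HasFDerivAt (lift e H) (om (X z)) z) ∧
      (∀ z w, ‖X z - X w‖ ≤ K * ‖z - w‖) ∧
      (∀ (a : ℂ) (z : V), X (a • z) = a • X z) ∧
      (∀ (a : ℂ) (z : V), lift e H (a • z) = ‖a‖ ^ 2 * lift e H z) ∧
      (∀ z, z ∉ cone e (tsupport H) → X z = 0) ∧
      (∀ z, lift e H z ≤ C * ‖(e z).1‖ ^ 2) ∧
      (∀ y ∈ openBall n 1, X (sig e y) = dsig e y (Y y) +
        ((vert e H y (Y y) : ℝ) * Complex.I : ℂ) • sig e y)

/-- Row G2: lifting an integral curve. -/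
def G2_statement : Prop := ∀ (V : Type u) [NormedAddCommGroup V] [InnerProductSpace ℂ V]
    [FiniteDimensional ℂ V] (n : ℕ) (e : V ≃ₗ[ℂ] ℂ × (Fin n → ℂ)) (_ : IsUni e)
    (H : (Fin n → ℂ) → ℝ) (Y : (Fin n → ℂ) → (Fin n → ℂ)) (X : V → V), Continuous H →
    Continuous Y →
    (∀ (a : ℂ) (z : V), X (a • z) = a • X z) →
    (∀ y ∈ openBall n 1, X (sig e y) = dsig e y (Y y) +
        ((vert e H y (Y y) : ℝ) * Complex.I : ℂ) • sig e y) →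
    ∀ (τ : ℝ) (y : ℝ → (Fin n → ℂ)) (a : ℂ), (∀ t ∈ Set.Icc (0 : ℝ) 1, y t ∈ openBall n 1) →
    (∀ t ∈ Set.Icc (0 : ℝ) 1, HasDerivWithinAt y (τ • Y (y t)) (Set.Icc 0 1) t) →
    ∃ θ : ℝ → ℝ, θ 0 = 0 ∧
      (∀ t ∈ Set.Icc (0 : ℝ) 1,
        HasDerivWithinAt θ (τ * vert e H (y t) (Y (y t))) (Set.Icc 0 1) t) ∧
      ∀ t ∈ Set.Icc (0 : ℝ) 1, HasDerivWithinAt
        (fun t => (a * Complex.exp (θ t * Complex.I)) • sig e (y t))
        ((τ : ℂ) • X ((a * Complex.exp (θ t * Complex.I)) • sig e (y t))) (Set.Icc 0 1) t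

/-- Row G3: the Hamiltonian of a ball. -/
def G3_statement : Prop := ∀ (n : ℕ) (r c : ℝ) (f : (Fin n → ℂ) → (Fin n → ℂ)),
    0 < c → c < r → IsSymplecticEmbedding r f →
    ∃ (h h' : ℝ → ℝ) (r' : ℝ) (H : (Fin n → ℂ) → ℝ) (Y : (Fin n → ℂ) → (Fin n → ℂ)),
      0 < r' ∧ r' < r ∧ c < h 0 ∧ h 0 < r ∧
      (∀ u, 0 ≤ u → u < r' → -1 < h' u ∧ h' u < 0 ∧ 0 < h u) ∧
      (∀ u, 0 < u → u < r' → h u < h 0) ∧
      (∀ u, r' ≤ u → h' u = 0 ∧ h u = 0) ∧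
      ContDiff ℝ ∞ H ∧ IsField H Y ∧ (∀ y, 0 ≤ H y) ∧ (∀ y, H y ≤ h 0) ∧
      (∀ y, y ∉ f '' closedBall n r' → H y = 0 ∧ Y y = 0) ∧
      ∀ x ∈ openBall n r, H (f x) = h (Real.pi * nsq x) ∧
        Y (f x) = fderiv ℝ f x
          (fun j => ((-(2 * Real.pi * h' (Real.pi * nsq x)) : ℝ) * Complex.I : ℂ) * x j)

/-- Row G4: the data `BallHam` of a ball of capacity `r < 1` in the unit ball. -/
def G4_statement : Prop := ∀ (V : Type u) [NormedAddCommGroup V] [InnerProductSpace ℂ V]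
    [FiniteDimensional ℂ V] (n : ℕ) (e : V ≃ₗ[ℂ] ℂ × (Fin n → ℂ)) (_ : IsUni e)
    (l : V →L[ℂ] ℂ) (_ : ∀ z, l z = (e z).1)
    (r c : ℝ) (f : (Fin n → ℂ) → (Fin n → ℂ)), 0 < c → c < r → r ≤ 1 →
    IsSymplecticEmbedding r f → f '' closedBall n r ⊆ openBall n 1 →
    ∃ c' : ℝ, c < c' ∧ c' < r ∧ Nonempty (BallHam l (cone e (f '' openBall n r)) c')

/-- Row F: the abstract two-ball theorem. -/
def F_statement : Prop := ∀ (V : Type u) [NormedAddCommGroup V] [InnerProductSpace ℂ V]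
    [FiniteDimensional ℂ V] (l : V →L[ℂ] ℂ) (Om₁ Om₂ : Set V) (c₁ c₂ : ℝ)
    (_ : BallHam l Om₁ c₁) (_ : BallHam l Om₂ c₂), l ≠ 0 → Disjoint Om₁ Om₂ →
    c₁ < 1 → c₂ < 1 → 1 < c₁ + c₂ → False

/-- Row H: Gromov's two-ball theorem. -/
def H_statement : Prop := ∀ (n : ℕ) (R : ℝ) (ι : Type u) (r : ι → ℝ) (i j : ι), 0 < n →
    0 < R → i ≠ j → 0 < r i → 0 < r j → Packs (openBall n R) r → r i + r j < R

/-- Row VOL: the volume condition. -/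
def VOL_statement : Prop := ∀ (n k : ℕ) (R : ℝ) (r : Fin k → ℝ), 0 < n →
    0 < R → (∀ i, 0 < r i) → Packs (openBall n R) r → ∑ i, r i ^ n < R ^ n

end

end Vale.Agent.P209.H710.Nec
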