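import Vale.Agent.P209.H710.Nec.Defs

/-!
# P209, necessity: Gromov's two-ball theorem from the abstract theorem
-/

namespace Vale.Agent.P209.H710.Nec

noncomputable section

open Set Metric Vale.Agent.P209

open scoped ContDiff

universe u

/-! ### Balls -/

theorem nsq_continuous {n : ℕ} : Continuous fun z : Fin n → ℂ => Real.pi * ∑ j, ‖z j‖ ^ 2 := by
  fun_prop

theorem isCompact_closedBall' (n : ℕ) (r : ℝ) : IsCompact (Vale.Agent.P209.closedBall n r) := by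
  apply Metric.isCompact_of_isClosed_isBounded
  · exact isClosed_le nsq_continuous continuous_const
  · refine (Metric.isBounded_iff_subset_closedBall (0 : Fin n → ℂ)).2 ⟨Real.sqrt (|r| / Real.pi), ?_⟩
    intro z hz
    rw [mem_closedBall_zero_iff, pi_norm_le_iff_of_nonneg (Real.sqrt_nonneg _)]
    intro j
    apply Real.le_sqrt_of_sq_le
    rw [le_div_iff₀ Real.pi_pos]
    have h1 : ‖z j‖ ^ 2 ≤ ∑ j, ‖z j‖ ^ 2 :=
      Finset.single_le_sum (f := fun j => ‖z j‖ ^ 2) (fun i _ => sq_nonneg _) (Finset.mem_univ j)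
    have h2 : Real.pi * ∑ j, ‖z j‖ ^ 2 ≤ r := hz
    have h3 := mul_le_mul_of_nonneg_left h1 Real.pi_pos.le
    nlinarith [le_abs_self r]

theorem closedBall_mono {n : ℕ} {r r' : ℝ} (h : r ≤ r') :
    Vale.Agent.P209.closedBall n r ⊆ Vale.Agent.P209.closedBall n r' :=
  fun _ hz => le_trans hz h

theorem openBall_subset_closedBall {n : ℕ} {r : ℝ} :
    openBall n r ⊆ Vale.Agent.P209.closedBall n r := by
  intro z hz
  have h : Real.pi * ∑ j, ‖z j‖ ^ 2 < r := hz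
  exact h.le

theorem isOpen_openBall (n : ℕ) (r : ℝ) : IsOpen (openBall n r) :=
  isOpen_lt nsq_continuous continuous_const

/-- A closed ball in an open set can be enlarged a little. -/
theorem exists_larger {n : ℕ} {r : ℝ} {O : Set (Fin n → ℂ)} (hO : IsOpen O)
    (h : Vale.Agent.P209.closedBall n r ⊆ O) :
    ∃ ε > 0, Vale.Agent.P209.closedBall n (r + ε) ⊆ O := by
  by_contra hcon
  push Not at hcon
  have h1 : ∀ k : ℕ, ∃ z, z ∈ Vale.Agent.P209.closedBall n (r + 1 / ((k : ℝ) + 1)) ∧ z ∉ O :=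
    fun k => Set.not_subset.1 (hcon _ (by positivity))
  choose z hz hzO using h1
  have hz1 : ∀ k, z k ∈ Vale.Agent.P209.closedBall n (r + 1) := fun k => by
    refine closedBall_mono ?_ (hz k)
    have : 1 / ((k : ℝ) + 1) ≤ 1 := by
      rw [div_le_one (by positivity)]
      have : (0 : ℝ) ≤ k := Nat.cast_nonneg k
      linarith
    linarith
  obtain ⟨w, -, φ, hφ, hw⟩ := (isCompact_closedBall' n (r + 1)).tendsto_subseq hz1
  have h2 : w ∈ Vale.Agent.P209.closedBall n r := by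
    have h3 : Filter.Tendsto (fun k => Real.pi * ∑ j, ‖z (φ k) j‖ ^ 2) Filter.atTop
        (nhds (Real.pi * ∑ j, ‖w j‖ ^ 2)) := (nsq_continuous.tendsto w).comp hw
    have h4 : Filter.Tendsto (fun k : ℕ => r + 1 / ((φ k : ℝ) + 1)) Filter.atTop (nhds (r + 0)) :=
      (tendsto_one_div_add_atTop_nhds_zero_nat.comp hφ.tendsto_atTop).const_add r
    rw [add_zero] at h4
    exact le_of_tendsto_of_tendsto' h3 h4 fun k => hz (φ k)
  have h5 : w ∈ Oᶜ := hO.isClosed_compl.mem_of_tendsto hw (Filter.Eventually.of_forall fun k => hzO _)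
  exact h5 (h h2)

theorem IsSymplecticEmbedding.mono {n : ℕ} {r r' : ℝ} (h : r ≤ r') {f : (Fin n → ℂ) → (Fin n → ℂ)}
    (hf : IsSymplecticEmbedding r' f) : IsSymplecticEmbedding r f := by
  obtain ⟨U, h1, h2, h3⟩ := hf
  exact ⟨U, h1, (closedBall_mono h).trans h2, h3⟩

/-- Enlarging an embedding inside an open set. -/
theorem exists_enlarge {n : ℕ} {r : ℝ} {f : (Fin n → ℂ) → (Fin n → ℂ)}
    (hf : IsSymplecticEmbedding r f) {O : Set (Fin n → ℂ)} (hO : IsOpen O)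
    (hfO : f '' Vale.Agent.P209.closedBall n r ⊆ O) :
    ∃ ε > 0, IsSymplecticEmbedding (r + ε) f ∧ f '' Vale.Agent.P209.closedBall n (r + ε) ⊆ O := by
  obtain ⟨U, h1, h2, h3, h4⟩ := hf
  have h5 : IsOpen (U ∩ f ⁻¹' O) := h3.continuousOn.isOpen_inter_preimage h1 hO
  obtain ⟨ε, h6, h7⟩ := exists_larger h5 (r := r) fun z hz => ⟨h2 hz, hfO ⟨z, hz, rfl⟩⟩
  refine ⟨ε, h6, ⟨U, h1, fun z hz => (h7 hz).1, h3, h4⟩, ?_⟩
  rintro _ ⟨z, hz, rfl⟩
  exact (h7 hz).2

/-! ### Scaling -/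

/-- The rescaled map `x ↦ λ⁻¹ f (λ x)`. -/
def rsc {n : ℕ} (lam : ℝ) (f : (Fin n → ℂ) → (Fin n → ℂ)) (x : Fin n → ℂ) : Fin n → ℂ :=
  lam⁻¹ • f (lam • x)

theorem nsq_smul {n : ℕ} (lam : ℝ) (x : Fin n → ℂ) :
    Real.pi * ∑ j, ‖(lam • x) j‖ ^ 2 = lam ^ 2 * (Real.pi * ∑ j, ‖x j‖ ^ 2) := by
  simp only [Pi.smul_apply, norm_smul, mul_pow, Real.norm_eq_abs, sq_abs]
  rw [← Finset.mul_sum]
  ring

theorem mem_closedBall_smul {n : ℕ} {lam : ℝ} (hl : 0 < lam) {r : ℝ} {x : Fin n → ℂ} :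
    lam • x ∈ Vale.Agent.P209.closedBall n r ↔ x ∈ Vale.Agent.P209.closedBall n (r / lam ^ 2) := by
  show Real.pi * ∑ j, ‖(lam • x) j‖ ^ 2 ≤ r ↔ Real.pi * ∑ j, ‖x j‖ ^ 2 ≤ r / lam ^ 2
  rw [nsq_smul, le_div_iff₀ (by positivity), mul_comm]

theorem mem_openBall_smul {n : ℕ} {lam : ℝ} (hl : 0 < lam) {r : ℝ} {x : Fin n → ℂ} :
    lam • x ∈ openBall n r ↔ x ∈ openBall n (r / lam ^ 2) := by
  show Real.pi * ∑ j, ‖(lam • x) j‖ ^ 2 < r ↔ Real.pi * ∑ j, ‖x j‖ ^ 2 < r / lam ^ 2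
  rw [nsq_smul, lt_div_iff₀ (by positivity), mul_comm]

theorem omega_smul_smul {n : ℕ} (a b : ℝ) (v w : Fin n → ℂ) :
    omega (a • v) (b • w) = a * b * omega v w := by
  unfold omega
  rw [Finset.mul_sum]
  refine Finset.sum_congr rfl fun j _ => ?_
  simp only [Pi.smul_apply, Complex.real_smul, Complex.mul_re, Complex.mul_im, Complex.ofReal_re,
    Complex.ofReal_im, zero_mul, sub_zero, add_zero]
  ring

theorem rsc_embedding {n : ℕ} {lam : ℝ} (hl : 0 < lam) {r : ℝ} {f : (Fin n → ℂ) → (Fin n → ℂ)}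
    (hf : IsSymplecticEmbedding r f) : IsSymplecticEmbedding (r / lam ^ 2) (rsc lam f) := by
  obtain ⟨U, h1, h2, h3, h4, h5⟩ := hf
  have hl0 : lam ≠ 0 := hl.ne'
  set s : (Fin n → ℂ) ≃ₜ (Fin n → ℂ) := Homeomorph.smulOfNeZero lam hl0 with hs
  have hU' : IsOpen ((fun x : Fin n → ℂ => lam • x) ⁻¹' U) := h1.preimage (by fun_prop)
  refine ⟨(fun x => lam • x) ⁻¹' U, hU', fun x hx => h2 ((mem_closedBall_smul hl).2 hx), ?_, ?_, ?_⟩
  · unfold rsc
    exact (h3.comp (by fun_prop : ContDiff ℝ ∞ fun x : Fin n → ℂ => lam • x).contDiffOn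
      fun x hx => hx).const_smul _
  · -- open embedding
    let e : ((fun x : Fin n → ℂ => lam • x) ⁻¹' U : Set (Fin n → ℂ)) ≃ₜ U :=
      s.sets (s := (fun x : Fin n → ℂ => lam • x) ⁻¹' U) (t := U) (by rw [hs]; rfl)
    have h6 : Topology.IsOpenEmbedding fun z : ((fun x : Fin n → ℂ => lam • x) ⁻¹' U :
        Set (Fin n → ℂ)) => f (e z) := h4.comp e.isOpenEmbedding
    have h7 : Topology.IsOpenEmbedding fun z : Fin n → ℂ => lam⁻¹ • z :=
      (Homeomorph.smulOfNeZero lam⁻¹ (inv_ne_zero hl0)).isOpenEmbedding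
    exact h7.comp h6
  · intro x hx v w
    have h8 : HasFDerivAt f (fderiv ℝ f (lam • x)) (lam • x) :=
      ((h3.contDiffAt (h1.mem_nhds hx)).differentiableAt (by simp)).hasFDerivAt
    have h9 : HasFDerivAt (fun x : Fin n → ℂ => lam • x)
        (lam • ContinuousLinearMap.id ℝ (Fin n → ℂ)) x := (hasFDerivAt_id x).const_smul lam
    have h10 : HasFDerivAt (rsc lam f) (lam⁻¹ • (fderiv ℝ f (lam • x)).comp
        (lam • ContinuousLinearMap.id ℝ (Fin n → ℂ))) x := (h8.comp x h9).const_smul lam⁻¹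
    rw [h10.fderiv]
    have h11 : ∀ v, (lam⁻¹ • (fderiv ℝ f (lam • x)).comp
        (lam • ContinuousLinearMap.id ℝ (Fin n → ℂ))) v = fderiv ℝ f (lam • x) v := by
      intro v
      simp only [smul_apply, ContinuousLinearMap.comp_apply,
        ContinuousLinearMap.id_apply, map_smul]
      rw [smul_smul, inv_mul_cancel₀ hl0, one_smul]
    rw [h11, h11]
    exact h5 _ hx v w

theorem rsc_image {n : ℕ} {lam : ℝ} (hl : 0 < lam) {r : ℝ} (f : (Fin n → ℂ) → (Fin n → ℂ)) :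
    rsc lam f '' Vale.Agent.P209.closedBall n (r / lam ^ 2) =
      (fun z => lam • z) ⁻¹' (f '' Vale.Agent.P209.closedBall n r) := by
  have hl0 : lam ≠ 0 := hl.ne'
  ext w
  constructor
  · rintro ⟨x, hx, rfl⟩
    refine ⟨lam • x, (mem_closedBall_smul hl).2 hx, ?_⟩
    simp only [rsc, smul_smul, mul_inv_cancel₀ hl0, one_smul]
  · rintro ⟨x, hx, h⟩
    refine ⟨lam⁻¹ • x, ?_, ?_⟩
    · rw [← mem_closedBall_smul hl, smul_smul, mul_inv_cancel₀ hl0, one_smul]
      exact hx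
    · simp only [rsc, smul_smul, mul_inv_cancel₀ hl0, one_smul]
      rw [h, smul_smul, inv_mul_cancel₀ hl0, one_smul]

/-! ### The space `ℂⁿ⁺¹` -/

/-- The identification of `ℂⁿ⁺¹` with `ℂ × ℂⁿ`. -/
def eU (n : ℕ) : EuclideanSpace ℂ (Fin (n + 1)) ≃ₗ[ℂ] ℂ × (Fin n → ℂ) where
  toFun z := (z 0, fun j => z j.succ)
  invFun q := WithLp.toLp 2 (Fin.cons q.1 q.2)
  map_add' z w := rfl
  map_smul' c z := rfl
  left_inv z := by
    ext i
    refine Fin.cases ?_ (fun j => ?_) i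
    · rfl
    · rfl
  right_inv q := by
    rfl

theorem isUni_eU (n : ℕ) : IsUni (eU n) := by
  intro z w
  rw [PiLp.inner_apply, Fin.sum_univ_succ]
  simp only [RCLike.inner_apply]
  exact congrArg₂ (· + ·) (mul_comm _ _) (Finset.sum_congr rfl fun j _ => mul_comm _ _)

/-! ### Row H -/

theorem disjoint_cone {V : Type*} [NormedAddCommGroup V] [InnerProductSpace ℂ V] {n : ℕ}
    (e : V ≃ₗ[ℂ] ℂ × (Fin n → ℂ)) {S T : Set (Fin n → ℂ)} (h : Disjoint S T) :
    Disjoint (cone e S) (cone e T) :=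
  Set.disjoint_left.2 fun _ hz hz' => Set.disjoint_left.1 h hz.2 hz'.2

/-- The two-ball theorem in the unit ball, radii `≤ 1` and sum `> 1`. -/
theorem two_ball_unit (hF : F_statement.{0}) (hG : G4_statement.{0}) {n : ℕ} {r₁ r₂ : ℝ}
    (h1 : 0 < r₁) (h2 : 0 < r₂) (h1' : r₁ ≤ 1) (h2' : r₂ ≤ 1) (hsum : 1 < r₁ + r₂)
    {f₁ f₂ : (Fin n → ℂ) → (Fin n → ℂ)} (hf₁ : IsSymplecticEmbedding r₁ f₁)
    (hf₂ : IsSymplecticEmbedding r₂ f₂)
    (hi₁ : f₁ '' Vale.Agent.P209.closedBall n r₁ ⊆ openBall n 1)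
    (hi₂ : f₂ '' Vale.Agent.P209.closedBall n r₂ ⊆ openBall n 1)
    (hd : Disjoint (f₁ '' Vale.Agent.P209.closedBall n r₁)
      (f₂ '' Vale.Agent.P209.closedBall n r₂)) : False := by
  -- constants
  have hlam : 1 / (r₁ + r₂) < 1 := by
    rw [div_lt_one (by linarith)]
    exact hsum
  obtain ⟨t, ht0, ht1⟩ := exists_between hlam
  have htp : 0 < t := lt_trans (by positivity) ht0
  have hc₁ : t * r₁ < r₁ := by nlinarith
  have hc₂ : t * r₂ < r₂ := by nlinarith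
  have hc : 1 < t * r₁ + t * r₂ := by
    rw [div_lt_iff₀ (by linarith)] at ht0
    linarith
  obtain ⟨c₁, a1, a2, ⟨A⟩⟩ := hG (EuclideanSpace ℂ (Fin (n + 1))) n (eU n) (isUni_eU n)
    (EuclideanSpace.proj (0 : Fin (n + 1))) (fun z => rfl) r₁ (t * r₁) f₁ (by positivity) hc₁ h1'
    hf₁ hi₁
  obtain ⟨c₂, b1, b2, ⟨B⟩⟩ := hG (EuclideanSpace ℂ (Fin (n + 1))) n (eU n) (isUni_eU n)
    (EuclideanSpace.proj (0 : Fin (n + 1))) (fun z => rfl) r₂ (t * r₂) f₂ (by positivity) hc₂ h2'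
    hf₂ hi₂
  refine hF (EuclideanSpace ℂ (Fin (n + 1))) (EuclideanSpace.proj (0 : Fin (n + 1))) _ _ c₁ c₂ A B
    ?_ ?_ (by linarith) (by linarith) (by linarith)
  · intro h0
    have h3 := congrArg (fun l : EuclideanSpace ℂ (Fin (n + 1)) →L[ℂ] ℂ =>
      l (EuclideanSpace.single 0 1)) h0
    simp at h3
  · exact disjoint_cone _ (hd.mono (Set.image_mono openBall_subset_closedBall)
      (Set.image_mono openBall_subset_closedBall))

/-- Row H: Gromov's two-ball theorem. -/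
theorem H (hF : F_statement.{0}) (hG : G4_statement.{0}) : H_statement.{u} := by
  intro n R ι r i j hn hR hij hri hrj hP
  by_contra hcon
  push Not at hcon
  obtain ⟨f, h1, h2, h3⟩ := hP
  have hd := h3 hij
  have hci : IsCompact (f i '' Vale.Agent.P209.closedBall n (r i)) := by
    obtain ⟨U, u1, u2, u3, -⟩ := h1 i
    exact (isCompact_closedBall' n (r i)).image_of_continuousOn (u3.continuousOn.mono u2)
  have hcj : IsCompact (f j '' Vale.Agent.P209.closedBall n (r j)) := by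
    obtain ⟨U, u1, u2, u3, -⟩ := h1 j
    exact (isCompact_closedBall' n (r j)).image_of_continuousOn (u3.continuousOn.mono u2)
  obtain ⟨O₁, O₂, o1, o2, o3, o4, o5⟩ := SeparatedNhds.of_isCompact_isCompact hci hcj hd
  obtain ⟨ε₁, e1, e2, e3⟩ := exists_enlarge (h1 i) (o1.inter (isOpen_openBall n R))
    (Set.subset_inter o3 (h2 i))
  obtain ⟨ε₂, e4, e5, e6⟩ := exists_enlarge (h1 j) (o2.inter (isOpen_openBall n R))
    (Set.subset_inter o4 (h2 j))
  set lam : ℝ := Real.sqrt R with hlam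
  have hl : 0 < lam := Real.sqrt_pos.2 hR
  have hl2 : lam ^ 2 = R := Real.sq_sqrt hR.le
  -- the rescaled radii
  have hp1 : 0 < (r i + ε₁) / lam ^ 2 := by positivity
  have hp2 : 0 < (r j + ε₂) / lam ^ 2 := by positivity
  have hsum : 1 < min ((r i + ε₁) / lam ^ 2) 1 + min ((r j + ε₂) / lam ^ 2) 1 := by
    have h4 : 1 < (r i + ε₁) / lam ^ 2 + (r j + ε₂) / lam ^ 2 := by
      rw [← add_div, lt_div_iff₀ (by positivity), hl2]
      linarith
    rcases min_cases ((r i + ε₁) / lam ^ 2) 1 with ⟨q1, -⟩ | ⟨q1, -⟩ <;>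
    rcases min_cases ((r j + ε₂) / lam ^ 2) 1 with ⟨q2, -⟩ | ⟨q2, -⟩ <;> rw [q1, q2] <;> linarith
  have himg : ∀ (ρ : ℝ) (g : (Fin n → ℂ) → (Fin n → ℂ)) (O : Set (Fin n → ℂ)),
      g '' Vale.Agent.P209.closedBall n ρ ⊆ O ∩ openBall n R →
      rsc lam g '' Vale.Agent.P209.closedBall n (min (ρ / lam ^ 2) 1) ⊆
        (fun z => lam • z) ⁻¹' O ∩ openBall n 1 := by
    intro ρ g O hg
    refine (Set.image_mono (closedBall_mono (min_le_left _ _))).trans ?_
    rw [rsc_image hl]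
    intro z hz
    have h5 := hg hz
    refine ⟨h5.1, ?_⟩
    have h6 := (mem_openBall_smul hl).1 h5.2
    rwa [hl2, div_self hR.ne'] at h6
  have k1 := himg _ _ _ e3
  have k2 := himg _ _ _ e6
  refine two_ball_unit hF hG (lt_min hp1 one_pos) (lt_min hp2 one_pos) (min_le_right _ _)
    (min_le_right _ _) hsum (IsSymplecticEmbedding.mono (min_le_left _ _) (rsc_embedding hl e2))
    (IsSymplecticEmbedding.mono (min_le_left _ _) (rsc_embedding hl e5))
    (k1.trans Set.inter_subset_right) (k2.trans Set.inter_subset_right) ?_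
  have hdO : Disjoint ((fun z : Fin n → ℂ => lam • z) ⁻¹' O₁) ((fun z => lam • z) ⁻¹' O₂) :=
    o5.preimage _
  exact hdO.mono (k1.trans Set.inter_subset_left) (k2.trans Set.inter_subset_left)

end

end Vale.Agent.P209.H710.Nec
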