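import Vale.Agent.P209.H710.Nec.Fin
import Vale.Agent.P209.H710.Nec.RowH
import Vale.Agent.P209.H761.NecA
import Vale.Agent.P209.H868.NecC1
import Vale.Agent.P209.H868.NecC2
import Vale.Agent.P209.H868.NecG2
import Vale.Agent.P209.H519.NecD1
import Vale.Agent.P209.H949.D2
import Vale.Agent.P209.H18.RowE
import Vale.Agent.P209.H447.Nec.G1
import Vale.Agent.P209.H578.NecG4
import Vale.Agent.P209.H949.G3
import Vale.Agent.P209.H753.Vol

/-!
# P209: the two conditions are necessary

Gromov's two-ball theorem `two_ball` (generating functions of midpoint chains on `ℂⁿ⁺¹` and the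
Borsuk-Ulam theorem) and the volume condition.
-/

namespace Vale.Agent.P209.H710.Nec

universe u

/-- Gromov's two-ball theorem. -/
theorem two_ball : H_statement.{u} :=
  H (F H761.A1 H761.A2 H761.A3 C1 C2 H519.Nec.D1 H949.NecD2.D2 H18.E)
    (H578.NecG4.G4 H447.Nec.G1 H868.NecG2.G2 H949.G3)

/-- The two conditions are necessary for a packing of the open ball of capacity `R` by `k` closed
balls of capacities `r i`, in every dimension `2n > 0`. -/
theorem necessity (n k : ℕ) (hn : 0 < n) (R : ℝ) (r : Fin k → ℝ) (hR : 0 < R) (hr : ∀ i, 0 < r i)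
    (h : Packs (openBall n R) r) :
    ∑ i, r i ^ n < R ^ n ∧ ∀ i j, i < j → r i + r j < R :=
  ⟨H753.VOL n k R r hn hR hr h,
    fun i j hij => two_ball n R (Fin k) r i j hn hR hij.ne (hr i) (hr j) h⟩

end Vale.Agent.P209.H710.Nec
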