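import Vale.Agent.P209.H710.Nec.Crit
import Vale.Agent.P209.H761.Homotopy

/-!
# P209, necessity: the abstract two-ball theorem from the rows
-/

namespace Vale.Agent.P209.H710.Nec

noncomputable section

open Set Metric

universe u

/-- An odd map of sublevel sets transports the index. -/
theorem Idx.of_oddMap {W : Type u} [NormedAddCommGroup W] [NormedSpace ℝ W] {F F' : W → ℝ} {k : ℕ}
    (h : H761.OddMap F F') (hk : Idx {x | F' x < 0} k) : Idx {x | F x < 0} k := by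
  obtain ⟨φ, h1, h2, h3⟩ := h
  obtain ⟨g, g1, g2⟩ := hk
  refine ⟨fun x => g (φ x), g1.comp h1 fun x hx => h3 x hx, fun x hx => ⟨?_, (g2 _ (h3 x hx)).2⟩⟩
  simp only
  rw [h2, (g2 _ (h3 x hx)).1]

variable {V : Type u} [NormedAddCommGroup V] [InnerProductSpace ℂ V] [FiniteDimensional ℂ V]

omit [FiniteDimensional ℂ V] in
theorem BallHam.continuous_X {l : V →L[ℂ] ℂ} {Om : Set V} {c : ℝ} (A : BallHam l Om c) :
    Continuous A.X := by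
  have h : LipschitzWith (Real.toNNReal A.K) A.X := by
    apply LipschitzWith.of_dist_le_mul
    intro z w
    rw [dist_eq_norm, dist_eq_norm]
    exact (A.hX z w).trans (mul_le_mul_of_nonneg_right (Real.le_coe_toNNReal _) (norm_nonneg _))
  exact h.continuous

omit [FiniteDimensional ℂ V] in
theorem BallHam.continuous_G {l : V →L[ℂ] ℂ} {Om : Set V} {c : ℝ} (A : BallHam l Om c) :
    Continuous A.G :=
  continuous_iff_continuousAt.2 fun z => (A.hG z).continuousAt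

theorem ne_zero_of_apply_ne {W : Type*} [NormedAddCommGroup W] [NormedSpace ℝ W] {D : W →L[ℝ] ℝ}
    {x : W} (h : 0 < D x) : D ≠ 0 := by
  rintro rfl
  simp at h

omit [FiniteDimensional ℂ V] in
theorem DD_grd_pos {M : ℕ} {X : ℕ → V → V} {x : W V M}
    (h : alp X x = 0 → (∀ k, bet X x k = 0) → (∀ k, gam X x k = 0) → False) :
    0 < DD X x (grd X x) := by
  rw [DD_grd]
  by_contra hcon
  have hn1 : 0 ≤ ∑ k, ‖bet X x k‖ ^ 2 := Finset.sum_nonneg fun k _ => sq_nonneg _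
  have hn2 : 0 ≤ ∑ k, ‖gam X x k‖ ^ 2 := Finset.sum_nonneg fun k _ => sq_nonneg _
  have hn3 : 0 ≤ ‖alp X x‖ ^ 2 := sq_nonneg _
  have e1 : ‖alp X x‖ ^ 2 = 0 := by linarith
  have e2 : ∑ k, ‖bet X x k‖ ^ 2 = 0 := by linarith
  have e3 : ∑ k, ‖gam X x k‖ ^ 2 = 0 := by linarith
  rw [Finset.sum_eq_zero_iff_of_nonneg fun k _ => sq_nonneg _] at e2 e3
  exact h (norm_eq_zero.1 (pow_eq_zero_iff two_ne_zero |>.1 e1))
    (fun k => norm_eq_zero.1 (pow_eq_zero_iff two_ne_zero |>.1 (e2 k (Finset.mem_univ k))))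
    (fun k => norm_eq_zero.1 (pow_eq_zero_iff two_ne_zero |>.1 (e3 k (Finset.mem_univ k))))

/-- Transport along a path, one generating function. -/
theorem oddMap_FF (C1 : C1_statement.{u}) {M : ℕ} {a b : ℝ} (hab : a ≤ b) {f : ℝ → ℕ → V → ℝ}
    {X : ℝ → ℕ → V → V} (hf : ∀ τ ∈ Icc a b, ∀ j z, HasFDerivAt (f τ j) (om (X τ j z)) z)
    (hfs : ∀ τ ∈ Icc a b, ∀ j (c : ℝ) z, f τ j (c • z) = c ^ 2 * f τ j z)
    (hfc : ContinuousOn (fun q : ℝ × W V M => FF (f q.1) q.2) (Icc a b ×ˢ sphere 0 1))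
    (hXc : ∀ τ ∈ Icc a b, ∀ j, Continuous (X τ j))
    (hcrit : ∀ τ ∈ Icc a b, ∀ x : W V M, alp (X τ) x = 0 → (∀ k, bet (X τ) x k = 0) →
      (∀ k, gam (X τ) x k = 0) → x = 0) :
    H761.OddMap (FF (M := M) (f b)) (FF (M := M) (f a)) := by
  have hfin : FiniteDimensional ℝ V := FiniteDimensional.complexToReal V
  refine H761.oddMap_of_no_crit (E := W V M) (a := a) (b := b) (fun τ => FF (f τ))
    (fun τ => DD (X τ)) (fun τ hτ r x => FF_smul (hfs τ hτ) r x) hfc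
    (fun τ hτ x _ => C1 V M _ _ (hf τ hτ) x)
    (fun τ hτ => (continuous_DD (X := fun _ => X τ) (x := fun x => x) continuous_id
      (fun j => (hXc τ hτ j).comp continuous_snd)).continuousOn)
    ?_ (right_mem_Icc.2 hab) (left_mem_Icc.2 hab)
  intro τ hτ x hx _
  apply ne_zero_of_apply_ne (x := grd (X τ) x)
  exact DD_grd_pos fun e1 e2 e3 => hx (hcrit τ hτ x e1 e2 e3)

/-! ### The sum -/

/-- The first part as a continuous linear map. -/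
def prL₁ (V : Type u) [NormedAddCommGroup V] [InnerProductSpace ℂ V] (M : ℕ) :
    WS V M →L[ℝ] W V M :=
  (ContinuousLinearMap.fst ℝ V (((Fin M → V) × (Fin M → V)) × ((Fin M → V) × (Fin M → V)))).prod
    ((ContinuousLinearMap.fst ℝ ((Fin M → V) × (Fin M → V)) ((Fin M → V) × (Fin M → V))).comp
      (ContinuousLinearMap.snd ℝ V (((Fin M → V) × (Fin M → V)) × ((Fin M → V) × (Fin M → V)))))

/-- The second part as a continuous linear map. -/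
def prL₂ (V : Type u) [NormedAddCommGroup V] [InnerProductSpace ℂ V] (M : ℕ) :
    WS V M →L[ℝ] W V M :=
  (ContinuousLinearMap.fst ℝ V (((Fin M → V) × (Fin M → V)) × ((Fin M → V) × (Fin M → V)))).prod
    ((ContinuousLinearMap.snd ℝ ((Fin M → V) × (Fin M → V)) ((Fin M → V) × (Fin M → V))).comp
      (ContinuousLinearMap.snd ℝ V (((Fin M → V) × (Fin M → V)) × ((Fin M → V) × (Fin M → V)))))

omit [FiniteDimensional ℂ V] in
theorem prL₁_apply {M : ℕ} (x : WS V M) : prL₁ V M x = prt₁ x := rfl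

omit [FiniteDimensional ℂ V] in
theorem prL₂_apply {M : ℕ} (x : WS V M) : prL₂ V M x = prt₂ x := rfl

/-- The pseudo-gradient of the sum. -/
def grdS {M : ℕ} (X₁ X₂ : ℕ → V → V) (x : WS V M) : WS V M :=
  (Complex.I • (alp X₁ (prt₁ x) + alp X₂ (prt₂ x)),
    (fun k => Complex.I • bet X₁ (prt₁ x) k, fun k => Complex.I • gam X₁ (prt₁ x) k),
    (fun k => Complex.I • bet X₂ (prt₂ x) k, fun k => Complex.I • gam X₂ (prt₂ x) k))

omit [FiniteDimensional ℂ V] in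
theorem DDS_grdS {M : ℕ} (X₁ X₂ : ℕ → V → V) (x : WS V M) :
    DD X₁ (prt₁ x) (prt₁ (grdS X₁ X₂ x)) + DD X₂ (prt₂ x) (prt₂ (grdS X₁ X₂ x)) =
      ‖alp X₁ (prt₁ x) + alp X₂ (prt₂ x)‖ ^ 2 +
      (∑ k, ‖bet X₁ (prt₁ x) k‖ ^ 2 + ∑ k, ‖gam X₁ (prt₁ x) k‖ ^ 2) +
      (∑ k, ‖bet X₂ (prt₂ x) k‖ ^ 2 + ∑ k, ‖gam X₂ (prt₂ x) k‖ ^ 2) := by
  rw [DD_app, DD_app]
  simp only [grdS, prt₁, prt₂, om_I_smul]
  rw [← om_I_smul, om_add_left]
  ring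

omit [FiniteDimensional ℂ V] in
theorem DDS_grdS_pos {M : ℕ} {X₁ X₂ : ℕ → V → V} {x : WS V M}
    (h : alp X₁ (prt₁ x) + alp X₂ (prt₂ x) = 0 →
      (∀ k, bet X₁ (prt₁ x) k = 0) → (∀ k, gam X₁ (prt₁ x) k = 0) →
      (∀ k, bet X₂ (prt₂ x) k = 0) → (∀ k, gam X₂ (prt₂ x) k = 0) → False) :
    0 < DD X₁ (prt₁ x) (prt₁ (grdS X₁ X₂ x)) + DD X₂ (prt₂ x) (prt₂ (grdS X₁ X₂ x)) := by
  rw [DDS_grdS]
  by_contra hcon
  have n1 : 0 ≤ ∑ k, ‖bet X₁ (prt₁ x) k‖ ^ 2 := Finset.sum_nonneg fun k _ => sq_nonneg _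
  have n2 : 0 ≤ ∑ k, ‖gam X₁ (prt₁ x) k‖ ^ 2 := Finset.sum_nonneg fun k _ => sq_nonneg _
  have n3 : 0 ≤ ∑ k, ‖bet X₂ (prt₂ x) k‖ ^ 2 := Finset.sum_nonneg fun k _ => sq_nonneg _
  have n4 : 0 ≤ ∑ k, ‖gam X₂ (prt₂ x) k‖ ^ 2 := Finset.sum_nonneg fun k _ => sq_nonneg _
  have n5 : 0 ≤ ‖alp X₁ (prt₁ x) + alp X₂ (prt₂ x)‖ ^ 2 := sq_nonneg _
  have e1 : ∑ k, ‖bet X₁ (prt₁ x) k‖ ^ 2 = 0 := by linarith
  have e2 : ∑ k, ‖gam X₁ (prt₁ x) k‖ ^ 2 = 0 := by linarith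
  have e3 : ∑ k, ‖bet X₂ (prt₂ x) k‖ ^ 2 = 0 := by linarith
  have e4 : ∑ k, ‖gam X₂ (prt₂ x) k‖ ^ 2 = 0 := by linarith
  have e5 : ‖alp X₁ (prt₁ x) + alp X₂ (prt₂ x)‖ ^ 2 = 0 := by linarith
  rw [Finset.sum_eq_zero_iff_of_nonneg fun k _ => sq_nonneg _] at e1 e2 e3 e4
  have key : ∀ v : V, ‖v‖ ^ 2 = 0 → v = 0 := fun v hv =>
    norm_eq_zero.1 (pow_eq_zero_iff two_ne_zero |>.1 hv)
  exact h (key _ e5) (fun k => key _ (e1 k (Finset.mem_univ k)))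
    (fun k => key _ (e2 k (Finset.mem_univ k))) (fun k => key _ (e3 k (Finset.mem_univ k)))
    (fun k => key _ (e4 k (Finset.mem_univ k)))

/-- Transport along a path, sum of two generating functions. -/
theorem oddMap_FFS (C1 : C1_statement.{u}) {M : ℕ} {a b : ℝ} (hab : a ≤ b)
    {f₁ f₂ : ℝ → ℕ → V → ℝ} {X₁ X₂ : ℝ → ℕ → V → V}
    (hf₁ : ∀ τ ∈ Icc a b, ∀ j z, HasFDerivAt (f₁ τ j) (om (X₁ τ j z)) z)
    (hf₂ : ∀ τ ∈ Icc a b, ∀ j z, HasFDerivAt (f₂ τ j) (om (X₂ τ j z)) z)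
    (hfs₁ : ∀ τ ∈ Icc a b, ∀ j (c : ℝ) z, f₁ τ j (c • z) = c ^ 2 * f₁ τ j z)
    (hfs₂ : ∀ τ ∈ Icc a b, ∀ j (c : ℝ) z, f₂ τ j (c • z) = c ^ 2 * f₂ τ j z)
    (hfc : ContinuousOn (fun q : ℝ × WS V M => FF (f₁ q.1) (prt₁ q.2) + FF (f₂ q.1) (prt₂ q.2))
      (Icc a b ×ˢ sphere 0 1))
    (hXc₁ : ∀ τ ∈ Icc a b, ∀ j, Continuous (X₁ τ j))
    (hXc₂ : ∀ τ ∈ Icc a b, ∀ j, Continuous (X₂ τ j))
    (hcrit : ∀ τ ∈ Icc a b, ∀ x : WS V M, alp (X₁ τ) (prt₁ x) + alp (X₂ τ) (prt₂ x) = 0 →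
      (∀ k, bet (X₁ τ) (prt₁ x) k = 0) → (∀ k, gam (X₁ τ) (prt₁ x) k = 0) →
      (∀ k, bet (X₂ τ) (prt₂ x) k = 0) → (∀ k, gam (X₂ τ) (prt₂ x) k = 0) → x = 0) :
    H761.OddMap (fun x : WS V M => FF (f₁ a) (prt₁ x) + FF (f₂ a) (prt₂ x))
      (fun x : WS V M => FF (f₁ b) (prt₁ x) + FF (f₂ b) (prt₂ x)) := by
  have hfin : FiniteDimensional ℝ V := FiniteDimensional.complexToReal V
  refine H761.oddMap_of_no_crit (E := WS V M) (a := a) (b := b)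
    (fun τ x => FF (f₁ τ) (prt₁ x) + FF (f₂ τ) (prt₂ x))
    (fun τ x => (DD (X₁ τ) (prt₁ x)).comp (prL₁ V M) + (DD (X₂ τ) (prt₂ x)).comp (prL₂ V M))
    (fun τ hτ r x => ?_) hfc (fun τ hτ x _ => ?_) (fun τ hτ => ?_)
    ?_ (left_mem_Icc.2 hab) (right_mem_Icc.2 hab)
  · have h1 : prt₁ (r • x) = r • prt₁ x := rfl
    have h2 : prt₂ (r • x) = r • prt₂ x := rfl
    rw [h1, h2, FF_smul (hfs₁ τ hτ), FF_smul (hfs₂ τ hτ)]
    ring
  · have h1 : HasFDerivAt (FF (M := M) (f₁ τ)) (DD (X₁ τ) (prt₁ x)) (prL₁ V M x) :=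
      C1 V M _ _ (hf₁ τ hτ) _
    have h2 : HasFDerivAt (FF (M := M) (f₂ τ)) (DD (X₂ τ) (prt₂ x)) (prL₂ V M x) :=
      C1 V M _ _ (hf₂ τ hτ) _
    exact (h1.comp x (prL₁ V M).hasFDerivAt).add (h2.comp x (prL₂ V M).hasFDerivAt)
  · have h1 : Continuous fun x : WS V M => DD (X₁ τ) (prt₁ x) :=
      continuous_DD (X := fun _ => X₁ τ) (x := fun x : WS V M => prt₁ x) (prL₁ V M).continuous
        (fun j => (hXc₁ τ hτ j).comp continuous_snd)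
    have h2 : Continuous fun x : WS V M => DD (X₂ τ) (prt₂ x) :=
      continuous_DD (X := fun _ => X₂ τ) (x := fun x : WS V M => prt₂ x) (prL₂ V M).continuous
        (fun j => (hXc₂ τ hτ j).comp continuous_snd)
    exact ((h1.clm_comp continuous_const).add (h2.clm_comp continuous_const)).continuousOn
  · intro τ hτ x hx _
    apply ne_zero_of_apply_ne (x := grdS (X₁ τ) (X₂ τ) x)
    exact DDS_grdS_pos fun e1 e2 e3 e4 e5 => hx (hcrit τ hτ x e1 e2 e3 e4 e5)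

end

end Vale.Agent.P209.H710.Nec
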