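import Vale.Agent.P209.H710.Nec.Defs

/-!
# P209, necessity: basic properties of the generating functions
-/

namespace Vale.Agent.P209.H710.Nec

noncomputable section

variable {V : Type*} [NormedAddCommGroup V] [InnerProductSpace ℂ V]

theorem om_I_smul (u : V) : om u (Complex.I • u) = ‖u‖ ^ 2 := by
  rw [om_apply, inner_smul_right, inner_self_eq_norm_sq_to_K]
  simp only [Complex.mul_im, Complex.I_re, Complex.I_im, zero_mul, one_mul, zero_add]
  norm_cast

theorem om_add_left (u v w : V) : om (u + v) w = om u w + om v w := by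
  simp only [om_apply, inner_add_left, Complex.add_im]

theorem continuous_om : Continuous (om : V → (V →L[ℝ] ℝ)) := by
  have h1 : Continuous fun u : V => ((innerSL ℂ u).restrictScalars ℝ : V →L[ℝ] ℂ) :=
    (ContinuousLinearMap.restrictScalarsL ℂ V ℂ ℝ ℝ).continuous.comp (innerSL ℂ).continuous
  exact continuous_const.clm_comp h1

/-! ### Homogeneity -/

theorem mid_smul {M : ℕ} (c : ℝ) (x : W V M) (j : ℕ) : mid (c • x) j = c • mid x j := by
  simp only [mid, Prod.smul_fst, Prod.smul_snd, Pi.smul_apply, smul_add, Finset.smul_sum, smul_ite,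
    smul_zero]

theorem X_real_smul {X : V → V} (h : ∀ (a : ℂ) (z : V), X (a • z) = a • X z) (c : ℝ) (z : V) :
    X (c • z) = c • X z := by
  have := h (c : ℂ) z
  rwa [Complex.coe_smul, Complex.coe_smul] at this

theorem stX_smul {N : ℕ} {X : V → V} {τ κ : ℝ} (h : ∀ (a : ℂ) (z : V), X (a • z) = a • X z)
    (j : ℕ) (a : ℂ) (z : V) : stX N X τ κ j (a • z) = a • stX N X τ κ j z := by
  unfold stX
  split_ifs with hj
  · rw [h, smul_comm]
  · rw [smul_comm]

theorem stX_real_smul {N : ℕ} {X : V → V} {τ κ : ℝ} (h : ∀ (a : ℂ) (z : V), X (a • z) = a • X z)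
    (j : ℕ) (c : ℝ) (z : V) : stX N X τ κ j (c • z) = c • stX N X τ κ j z :=
  X_real_smul (stX_smul h j) c z

theorem stp_real_smul {N : ℕ} {G : V → ℝ} {τ κ : ℝ}
    (h : ∀ (a : ℂ) (z : V), G (a • z) = ‖a‖ ^ 2 * G z) (j : ℕ) (c : ℝ) (z : V) :
    stp N G τ κ j (c • z) = c ^ 2 * stp N G τ κ j z := by
  have h1 : G (c • z) = c ^ 2 * G z := by
    have := h (c : ℂ) z
    rw [Complex.coe_smul, Complex.norm_real, Real.norm_eq_abs, sq_abs] at this
    exact this
  unfold stp
  split_ifs with hj
  · rw [h1]; ring
  · rw [norm_smul, mul_pow, Real.norm_eq_abs, sq_abs]; ring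

theorem om_real_smul_smul (c : ℝ) (u v : V) : om (c • u) (c • v) = c ^ 2 * om u v := by
  rw [map_smul, smul_eq_mul]
  have : om (c • u) v = c * om u v := by
    rw [← Complex.coe_smul, om_apply, om_apply, inner_smul_left, Complex.conj_ofReal,
      Complex.im_ofReal_mul]
  rw [this]; ring

theorem om_neg_neg (u v : V) : om (-u) (-v) = om u v := by
  simp only [om_apply, inner_neg_neg]

theorem FF_smul {M : ℕ} {f : ℕ → V → ℝ} (hf : ∀ j (c : ℝ) z, f j (c • z) = c ^ 2 * f j z)
    (c : ℝ) (x : W V M) : FF f (c • x) = c ^ 2 * FF f x := by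
  unfold FF
  rw [mul_add, Finset.mul_sum, Finset.mul_sum, Finset.mul_sum, Finset.mul_sum]
  congr 1
  · refine Finset.sum_congr rfl fun k _ => ?_
    rw [Prod.smul_snd, Prod.smul_fst, Prod.smul_snd, Pi.smul_apply, Pi.smul_apply,
      om_real_smul_smul]
    ring
  · refine Finset.sum_congr rfl fun j _ => ?_
    rw [mid_smul, hf]

theorem alp_smul {M : ℕ} {X : ℕ → V → V} (hX : ∀ j (c : ℝ) z, X j (c • z) = c • X j z)
    (c : ℝ) (x : W V M) : alp X (c • x) = c • alp X x := by
  unfold alp
  rw [Finset.smul_sum]
  exact Finset.sum_congr rfl fun j _ => by rw [mid_smul, hX]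

theorem bet_smul {M : ℕ} {X : ℕ → V → V} (hX : ∀ j (c : ℝ) z, X j (c • z) = c • X j z)
    (c : ℝ) (x : W V M) (k : Fin M) : bet X (c • x) k = c • bet X x k := by
  unfold bet
  rw [smul_sub, Finset.smul_sum, smul_comm c (2 : ℂ)]
  congr 1
  exact Finset.sum_congr rfl fun j _ => by rw [mid_smul, hX]

theorem gam_smul {M : ℕ} {X : ℕ → V → V} (hX : ∀ j (c : ℝ) z, X j (c • z) = c • X j z)
    (c : ℝ) (x : W V M) (k : Fin M) : gam X (c • x) k = c • gam X x k := by
  unfold gam
  rw [smul_add, mid_smul, hX, smul_comm c (2 : ℂ)]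
  rfl

/-! ### The pseudo-gradient -/

/-- The pseudo-gradient of `FF`. -/
def grd {M : ℕ} (X : ℕ → V → V) (x : W V M) : W V M :=
  (Complex.I • alp X x, fun k => Complex.I • bet X x k, fun k => Complex.I • gam X x k)

theorem DD_app {M : ℕ} (X : ℕ → V → V) (x y : W V M) :
    DD X x y = om (alp X x) y.1 + ∑ k, om (bet X x k) (y.2.1 k) + ∑ k, om (gam X x k) (y.2.2 k) := by
  simp only [DD, add_apply, sum_apply,
    ContinuousLinearMap.comp_apply, ContinuousLinearMap.coe_fst', ContinuousLinearMap.coe_snd',
    ContinuousLinearMap.proj_apply]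

theorem DD_grd {M : ℕ} (X : ℕ → V → V) (x : W V M) :
    DD X x (grd X x) = ‖alp X x‖ ^ 2 + ∑ k, ‖bet X x k‖ ^ 2 + ∑ k, ‖gam X x k‖ ^ 2 := by
  rw [DD_app]
  simp only [grd, om_I_smul]

theorem grd_smul {M : ℕ} {X : ℕ → V → V} (hX : ∀ j (c : ℝ) z, X j (c • z) = c • X j z)
    (c : ℝ) (x : W V M) : grd X (c • x) = c • grd X x := by
  unfold grd
  ext k
  · simp only [alp_smul hX, Prod.smul_mk]
    rw [smul_comm]
  · simp only [bet_smul hX, Prod.smul_mk, Pi.smul_apply]
    rw [smul_comm]
  · simp only [gam_smul hX, Prod.smul_mk, Pi.smul_apply]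
    rw [smul_comm]

/-! ### Continuity -/

theorem continuous_mid {M : ℕ} (j : ℕ) : Continuous fun x : W V M => mid x j := by
  unfold mid
  refine (continuous_fst.add (continuous_finsetSum _ fun k _ => ?_)).add
    (continuous_finsetSum _ fun k _ => ?_)
  · split_ifs
    · exact (continuous_apply k).comp (continuous_fst.comp continuous_snd)
    · exact continuous_const
  · split_ifs
    · exact (continuous_apply k).comp (continuous_snd.comp continuous_snd)
    · exact continuous_const

theorem continuous_stp {N : ℕ} {G : V → ℝ} (hG : Continuous G) (j : ℕ) :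
    Continuous fun q : ℝ × ℝ × V => stp N G q.1 q.2.1 j q.2.2 := by
  unfold stp
  split_ifs
  · exact (continuous_fst.div_const _).mul (hG.comp (continuous_snd.comp continuous_snd))
  · exact (continuous_fst.comp continuous_snd).neg.mul
      ((continuous_snd.comp continuous_snd).norm.pow 2)

theorem continuous_stX {N : ℕ} {X : V → V} (hX : Continuous X) (j : ℕ) :
    Continuous fun q : ℝ × ℝ × V => stX N X q.1 q.2.1 j q.2.2 := by
  unfold stX
  split_ifs
  · exact (Complex.continuous_ofReal.comp (continuous_fst.div_const _)).smul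
      (hX.comp (continuous_snd.comp continuous_snd))
  · exact ((Complex.continuous_ofReal.comp
      (continuous_const.mul (continuous_fst.comp continuous_snd))).mul continuous_const).smul
      (continuous_snd.comp continuous_snd)

section Cont

variable {T : Type*} [TopologicalSpace T] {M : ℕ}

theorem continuous_om_comp {u v : T → V} (hu : Continuous u) (hv : Continuous v) :
    Continuous fun t => om (u t) (v t) :=
  (continuous_om.comp hu).clm_apply hv

theorem continuous_FF {f : T → ℕ → V → ℝ} {x : T → W V M} (hx : Continuous x)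
    (hf : ∀ j, Continuous fun q : T × V => f q.1 j q.2) :
    Continuous fun t => FF (f t) (x t) := by
  unfold FF
  refine (continuous_const.mul (continuous_finsetSum _ fun k _ => ?_)).add
    (continuous_finsetSum _ fun j _ => ?_)
  · exact continuous_om_comp ((continuous_apply k).comp ((continuous_fst.comp continuous_snd).comp hx))
      ((continuous_apply k).comp ((continuous_snd.comp continuous_snd).comp hx))
  · exact (hf j).comp (continuous_id.prodMk ((continuous_mid j).comp hx))

variable {X : T → ℕ → V → V} {x : T → W V M} (hx : Continuous x)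
  (hX : ∀ j, Continuous fun q : T × V => X q.1 j q.2)

include hx hX

theorem continuous_alp : Continuous fun t => alp (X t) (x t) := by
  unfold alp
  exact continuous_finsetSum _ fun j _ =>
    (hX j).comp (continuous_id.prodMk ((continuous_mid j).comp hx))

theorem continuous_bet (k : Fin M) : Continuous fun t => bet (X t) (x t) k := by
  unfold bet
  refine (continuous_finsetSum _ fun j _ =>
    (hX j).comp (continuous_id.prodMk ((continuous_mid j).comp hx))).sub ?_
  exact continuous_const.smul
    ((continuous_apply k).comp ((continuous_snd.comp continuous_snd).comp hx))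

theorem continuous_gam (k : Fin M) : Continuous fun t => gam (X t) (x t) k := by
  unfold gam
  refine Continuous.add (continuous_const.smul
    ((continuous_apply k).comp ((continuous_fst.comp continuous_snd).comp hx))) ?_
  exact (hX _).comp (continuous_id.prodMk ((continuous_mid _).comp hx))

theorem continuous_grd : Continuous fun t => grd (X t) (x t) := by
  unfold grd
  refine (continuous_const.smul (continuous_alp hx hX)).prodMk
    ((continuous_pi fun k => ?_).prodMk (continuous_pi fun k => ?_))
  · exact continuous_const.smul (continuous_bet hx hX k)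
  · exact continuous_const.smul (continuous_gam hx hX k)

theorem continuous_DD : Continuous fun t => DD (X t) (x t) := by
  unfold DD
  refine (Continuous.add ?_ (continuous_finsetSum _ fun k _ => ?_)).add
    (continuous_finsetSum _ fun k _ => ?_)
  · exact (continuous_om.comp (continuous_alp hx hX)).clm_comp continuous_const
  · exact (continuous_om.comp (continuous_bet hx hX k)).clm_comp continuous_const
  · exact (continuous_om.comp (continuous_gam hx hX k)).clm_comp continuous_const

end Cont

end

end Vale.Agent.P209.H710.Nec
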