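import Vale.Agent.P209.H710.Nec.Basic

/-!
# P209, necessity: critical points of the generating functions are closed chains
-/

namespace Vale.Agent.P209.H710.Nec

noncomputable section

universe u

variable {V : Type u} [NormedAddCommGroup V] [InnerProductSpace ℂ V]

/-- The energy identity for the field of a `U(1)`-invariant function. -/
theorem BallHam.re_inner {l : V →L[ℂ] ℂ} {Om : Set V} {c : ℝ} (A : BallHam l Om c) (z : V) :
    (inner ℂ (A.X z) z : ℂ).re = 0 := by
  -- the curve `θ ↦ exp (i θ) z`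
  have h1 : HasDerivAt (fun θ : ℝ => Complex.exp ((θ : ℂ) * Complex.I) • z)
      ((Complex.I : ℂ) • z) 0 := by
    have h2 : HasDerivAt (fun θ : ℝ => (θ : ℂ) * Complex.I) Complex.I 0 := by
      simpa using (Complex.ofRealCLM.hasDerivAt (x := (0 : ℝ))).mul_const Complex.I
    have h3 := h2.cexp
    have h4 := h3.smul_const z
    simpa using h4
  have h5 : HasFDerivAt A.G (om (A.X z)) (Complex.exp (((0 : ℝ) : ℂ) * Complex.I) • z) := by
    simpa using A.hG z
  have h6 := h5.comp_hasDerivAt (0 : ℝ) h1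
  have h7 : (A.G ∘ fun θ : ℝ => Complex.exp ((θ : ℂ) * Complex.I) • z) = fun _ => A.G z := by
    funext θ
    simp only [Function.comp_apply]
    rw [A.G_smul, Complex.norm_exp_ofReal_mul_I]
    ring
  rw [h7] at h6
  have h8 := h6.unique (hasDerivAt_const (0 : ℝ) (A.G z))
  rw [om_apply, inner_smul_right] at h8
  simpa using h8

theorem hasFDerivAt_neg_norm_sq (κ : ℝ) (z : V) :
    HasFDerivAt (fun z : V => -κ * ‖z‖ ^ 2) (om (((2 * κ : ℝ) * Complex.I : ℂ) • z)) z := by
  have h1 : (fun z : V => -κ * ‖z‖ ^ 2) = fun z => -κ * (inner ℂ z z : ℂ).re := by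
    funext z
    rw [inner_self_eq_norm_sq_to_K]
    norm_cast
  let _ : InnerProductSpace ℝ V := InnerProductSpace.complexToReal
  have h2 : HasFDerivAt (fun z : V => ‖z‖ ^ 2) (2 • (innerSL ℝ z)) z := by
    simpa using (hasStrictFDerivAt_norm_sq z).hasFDerivAt
  have h3 := h2.const_mul (-κ)
  refine h3.congr_fderiv ?_
  ext v
  simp only [smul_apply, innerSL_apply_apply, smul_eq_mul, nsmul_eq_mul]
  rw [om_apply, inner_smul_left, real_inner_eq_re_inner ℂ]
  simp
  ring

theorem hasFDerivAt_stp {N : ℕ} {G : V → ℝ} {X : V → V} {τ κ : ℝ}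
    (h : ∀ z, HasFDerivAt G (om (X z)) z) (j : ℕ) (z : V) :
    HasFDerivAt (stp N G τ κ j) (om (stX N X τ κ j z)) z := by
  unfold stp stX
  by_cases hj : j < N
  · simp only [hj, if_true]
    have h1 := (h z).const_mul (τ / N)
    refine h1.congr_fderiv ?_
    ext v
    rw [smul_apply, om_apply, om_apply, inner_smul_left, Complex.conj_ofReal,
      Complex.im_ofReal_mul, smul_eq_mul]
  · simp only [hj, if_false]
    exact hasFDerivAt_neg_norm_sq κ z

/-! ### Steps -/

theorem norm_step {X : V → V} (hX : ∀ z, (inner ℂ (X z) z : ℂ).re = 0) {t : ℝ} {z z' m : V}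
    (h1 : z' - z = (t : ℂ) • X m) (h2 : z + z' = (2 : ℂ) • m) : ‖z'‖ = ‖z‖ := by
  have h3 : (inner ℂ (z' - z) (z + z') : ℂ).re = 0 := by
    rw [h1, h2, inner_smul_left, inner_smul_right, Complex.conj_ofReal, Complex.re_ofReal_mul,
      show (2 : ℂ) = ((2 : ℝ) : ℂ) by norm_num, Complex.re_ofReal_mul, hX]
    ring
  have h4 : (inner ℂ (z' - z) (z + z') : ℂ).re = ‖z'‖ ^ 2 - ‖z‖ ^ 2 := by
    rw [inner_sub_left, inner_add_right, inner_add_right, inner_self_eq_norm_sq_to_K,
      inner_self_eq_norm_sq_to_K, ← inner_conj_symm z' z]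
    simp only [Complex.sub_re, Complex.add_re, Complex.conj_re]
    have h5 : ∀ r : ℝ, (((r : ℝ) : ℂ) ^ 2).re = r ^ 2 := fun r => by norm_cast
    simp only [Complex.coe_algebraMap, h5]
    ring
  have h5 : ‖z'‖ ^ 2 = ‖z‖ ^ 2 := by linarith
  exact (pow_left_inj₀ (norm_nonneg _) (norm_nonneg _) two_ne_zero).1 h5

theorem rot_step {φ : ℝ} (hφ : Real.cos φ ≠ 0) {z z' m : V}
    (h1 : z' - z = ((2 * Real.tan φ : ℝ) * Complex.I : ℂ) • m) (h2 : z + z' = (2 : ℂ) • m) :
    z' = Complex.exp ((2 * φ : ℝ) * Complex.I) • z := by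
  have h3 : z' - z = ((Real.tan φ : ℝ) * Complex.I : ℂ) • (z + z') := by
    rw [h1, h2, smul_smul]
    congr 1
    push_cast
    ring
  have h4 : (1 - (Real.tan φ : ℝ) * Complex.I : ℂ) • z' = (1 + (Real.tan φ : ℝ) * Complex.I : ℂ) • z := by
    rw [← sub_eq_zero] at h3 ⊢
    rw [← h3]
    module
  have hc : (Real.cos φ : ℂ) ≠ 0 := by exact_mod_cast hφ
  have ht : (Real.cos φ : ℂ) * (Real.tan φ : ℂ) = (Real.sin φ : ℂ) := by
    rw [← Complex.ofReal_mul, mul_comm, Real.tan_mul_cos hφ]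
  have h5 : (Real.cos φ : ℂ) * (1 - (Real.tan φ : ℝ) * Complex.I) =
      Complex.exp (-(φ : ℂ) * Complex.I) := by
    rw [Complex.exp_mul_I, Complex.cos_neg, Complex.sin_neg, ← Complex.ofReal_cos,
      ← Complex.ofReal_sin, ← ht]
    ring
  have h6 : (Real.cos φ : ℂ) * (1 + (Real.tan φ : ℝ) * Complex.I) =
      Complex.exp ((φ : ℂ) * Complex.I) := by
    rw [Complex.exp_mul_I, ← Complex.ofReal_cos, ← Complex.ofReal_sin, ← ht]
    ring
  have h7 : Complex.exp (-(φ : ℂ) * Complex.I) • z' = Complex.exp ((φ : ℂ) * Complex.I) • z := by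
    rw [← h5, ← h6, mul_smul, mul_smul, h4]
  have h8 : Complex.exp ((φ : ℂ) * Complex.I) • Complex.exp (-(φ : ℂ) * Complex.I) • z' = z' := by
    rw [smul_smul, ← Complex.exp_add]
    simp
  rw [← h8, h7, smul_smul, ← Complex.exp_add]
  congr 2
  push_cast
  ring

/-! ### Chains -/

/-- There is no closed chain: the conclusion of row E. -/
def NoChain (X₁ X₂ : V → V) (s : ℝ) (N : ℕ) : Prop := ∀ τ : ℝ, 0 < τ → τ ≤ 1 → ∀ z z' : ℕ → V,
  (∀ i < N, z (i + 1) - z i = ((τ / N : ℝ) : ℂ) • X₁ ((1 / 2 : ℂ) • (z i + z (i + 1)))) →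
  (∀ i < N, z' (i + 1) - z' i = ((τ / N : ℝ) : ℂ) • X₂ ((1 / 2 : ℂ) • (z' i + z' (i + 1)))) →
  z' 0 = z N → z' N = ph (τ * s) • z 0 → z 0 = 0

theorem half_smul {z z' m : V} (h : z + z' = (2 : ℂ) • m) : (1 / 2 : ℂ) • (z + z') = m := by
  rw [h, smul_smul]
  norm_num

/-- The chain of a fibre critical point. -/
theorem exists_chain (C2 : C2_statement.{u}) {N : ℕ} {X : V → V} {τ φ : ℝ}
    (hX : ∀ (a : ℂ) (z : V), X (a • z) = a • X z)
    (hre : ∀ z, (inner ℂ (X z) z : ℂ).re = 0) (hφ : Real.cos φ ≠ 0) (x : W V (N + 1))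
    (hb : ∀ k, bet (stX N X τ (Real.tan φ)) x k = 0)
    (hg : ∀ k, gam (stX N X τ (Real.tan φ)) x k = 0) :
    ∃ z : ℕ → V,
      (∀ i < N, z (i + 1) - z i = ((τ / N : ℝ) : ℂ) • X ((1 / 2 : ℂ) • (z i + z (i + 1)))) ∧
      z (N + 2) = Complex.exp ((4 * φ : ℝ) * Complex.I) • z N ∧
      z (N + 2) - z 0 = alp (stX N X τ (Real.tan φ)) x ∧ z 0 + z (N + 2) = (2 : ℂ) • x.1 ∧
      (z 0 = 0 → x = 0) := by
  obtain ⟨z, h1, h2, h3, h4⟩ := C2 V (N + 1) (stX N X τ (Real.tan φ)) x hb hg
  have hlow : ∀ i < N, z (i + 1) - z i = ((τ / N : ℝ) : ℂ) • X (mid x i) := by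
    intro i hi
    have := h1 i (by omega)
    simpa only [stX, hi, if_true] using this
  have hhi : ∀ i, N ≤ i → i < N + 2 →
      z (i + 1) = Complex.exp ((2 * φ : ℝ) * Complex.I) • z i := by
    intro i hi hi2
    have := h1 i (by omega)
    have hn : ¬ i < N := by omega
    simp only [stX, hn, if_false] at this
    exact rot_step hφ this (h2 i (by omega))
  refine ⟨z, fun i hi => ?_, ?_, h3, h4, fun h0 => ?_⟩
  · rw [half_smul (h2 i (by omega))]
    exact hlow i hi
  · rw [hhi (N + 1) (by omega) (by omega), hhi N le_rfl (by omega), smul_smul, ← Complex.exp_add]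
    congr 2
    push_cast
    ring
  · -- everything vanishes
    have hz1 : ∀ i, i ≤ N → z i = 0 := by
      intro i
      induction i with
      | zero => exact fun _ => h0
      | succ i ih =>
        intro hi
        have h5 := norm_step hre (hlow i (by omega)) (h2 i (by omega))
        rw [ih (by omega), norm_zero] at h5
        exact norm_eq_zero.1 h5
    have hz2 : ∀ i, i ≤ N + 2 → z i = 0 := by
      intro i hi
      by_cases hiN : i ≤ N
      · exact hz1 i hiN
      · have h6 : z (N + 1) = 0 := by rw [hhi N le_rfl (by omega), hz1 N le_rfl, smul_zero]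
        rcases Nat.lt_or_ge i (N + 2) with h7 | h7
        · have : i = N + 1 := by omega
          rw [this, h6]
        · have : i = N + 1 + 1 := by omega
          rw [this, hhi (N + 1) (by omega) (by omega), h6, smul_zero]
    have hmid : ∀ j, j < N + 2 → mid x j = 0 := by
      intro j hj
      have h8 := h2 j (by omega)
      rw [hz2 j (by omega), hz2 (j + 1) (by omega), add_zero] at h8
      exact ((smul_eq_zero.1 h8.symm).resolve_left two_ne_zero)
    have hX0 : ∀ j, stX N X τ (Real.tan φ) j 0 = 0 := by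
      intro j
      have := stX_smul (N := N) (τ := τ) (κ := Real.tan φ) hX j 0 0
      rwa [zero_smul, zero_smul] at this
    ext k
    · have h9 := h4
      rw [h0, hz2 (N + 1 + 1) (by omega), add_zero] at h9
      exact (smul_eq_zero.1 h9.symm).resolve_left two_ne_zero
    · have h9 := hg k
      unfold gam at h9
      rw [hmid _ (by have := k.2; omega), hX0, add_zero] at h9
      exact (smul_eq_zero.1 h9).resolve_left two_ne_zero
    · have h9 := hb k
      unfold bet at h9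
      rw [Finset.sum_eq_zero, zero_sub, neg_eq_zero] at h9
      · exact (smul_eq_zero.1 h9).resolve_left two_ne_zero
      · intro j hj
        rw [Finset.mem_range] at hj
        rw [hmid j (by have := k.2; omega), hX0]

/-- Critical points of one generating function. -/
theorem eq_zero_of_crit (C2 : C2_statement.{u}) {N : ℕ} {X : V → V} {τ a : ℝ}
    (hX : ∀ (a : ℂ) (z : V), X (a • z) = a • X z)
    (hre : ∀ z, (inner ℂ (X z) z : ℂ).re = 0) (hN : NoChain X (fun _ => 0) a N)
    (hτ : 0 < τ) (hτ1 : τ ≤ 1) (ha : 0 < a) (ha1 : a < 1) (x : W V (N + 1))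
    (hal : alp (stX N X τ (Real.tan (Real.pi * a * τ / 2))) x = 0)
    (hb : ∀ k, bet (stX N X τ (Real.tan (Real.pi * a * τ / 2))) x k = 0)
    (hg : ∀ k, gam (stX N X τ (Real.tan (Real.pi * a * τ / 2))) x k = 0) : x = 0 := by
  have hcos : Real.cos (Real.pi * a * τ / 2) ≠ 0 := by
    apply ne_of_gt
    apply Real.cos_pos_of_mem_Ioo
    have hp := Real.pi_pos
    have h1 : 0 < Real.pi * a * τ := by positivity
    have h2 : Real.pi * a * τ < Real.pi := by
      have : a * τ < 1 := by nlinarith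
      calc Real.pi * a * τ = Real.pi * (a * τ) := by ring
        _ < Real.pi * 1 := mul_lt_mul_of_pos_left this hp
        _ = Real.pi := mul_one _
    constructor <;> linarith
  obtain ⟨z, h1, h2, h3, h4, h5⟩ := exists_chain C2 hX hre hcos x hb hg
  apply h5
  have h6 : z (N + 2) = z 0 := by
    rw [hal] at h3
    exact sub_eq_zero.1 h3
  have h7 : z N = ph (τ * a) • z 0 := by
    rw [← h6, h2, smul_smul, ph, ← Complex.exp_add]
    have : (-(2 * Real.pi * (τ * a) : ℝ) * Complex.I +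
      (4 * (Real.pi * a * τ / 2) : ℝ) * Complex.I : ℂ) = 0 := by
      push_cast
      ring
    rw [this, Complex.exp_zero, one_smul]
  exact hN τ hτ hτ1 z (fun _ => z N) h1 (fun i _ => by rw [sub_self, smul_zero]) rfl h7

/-- Critical points of the sum of two generating functions. -/
theorem eq_zero_of_crit₂ (C2 : C2_statement.{u}) {N : ℕ} {X₁ X₂ : V → V} {τ a b s : ℝ}
    (hX₁ : ∀ (a : ℂ) (z : V), X₁ (a • z) = a • X₁ z)
    (hX₂ : ∀ (a : ℂ) (z : V), X₂ (a • z) = a • X₂ z)
    (hre₁ : ∀ z, (inner ℂ (X₁ z) z : ℂ).re = 0)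
    (hre₂ : ∀ z, (inner ℂ (X₂ z) z : ℂ).re = 0) (hN : NoChain X₁ X₂ s N)
    (hτ : 0 < τ) (hτ1 : τ ≤ 1) (hs : 0 < s) (ha : 0 < a) (ha1 : a < 1) (hb : 0 < b) (hb1 : b < 1)
    (hab : a + b = 1 + s) (x : WS V (N + 1))
    (hal : alp (stX N X₁ τ (Real.tan (Real.pi * a * ((1 + τ * s) / (1 + s)) / 2))) (prt₁ x) +
      alp (stX N X₂ τ (Real.tan (Real.pi * b * ((1 + τ * s) / (1 + s)) / 2))) (prt₂ x) = 0)
    (hb₁ : ∀ k, bet (stX N X₁ τ (Real.tan (Real.pi * a * ((1 + τ * s) / (1 + s)) / 2)))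
      (prt₁ x) k = 0)
    (hg₁ : ∀ k, gam (stX N X₁ τ (Real.tan (Real.pi * a * ((1 + τ * s) / (1 + s)) / 2)))
      (prt₁ x) k = 0)
    (hb₂ : ∀ k, bet (stX N X₂ τ (Real.tan (Real.pi * b * ((1 + τ * s) / (1 + s)) / 2)))
      (prt₂ x) k = 0)
    (hg₂ : ∀ k, gam (stX N X₂ τ (Real.tan (Real.pi * b * ((1 + τ * s) / (1 + s)) / 2)))
      (prt₂ x) k = 0) : x = 0 := by
  have hcos : ∀ a : ℝ, 0 < a → a < 1 →
      Real.cos (Real.pi * a * ((1 + τ * s) / (1 + s)) / 2) ≠ 0 := by
    intro a ha ha1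
    apply ne_of_gt
    apply Real.cos_pos_of_mem_Ioo
    have hp := Real.pi_pos
    have h0 : 0 < (1 + τ * s) / (1 + s) := by positivity
    have h00 : (1 + τ * s) / (1 + s) ≤ 1 := by
      rw [div_le_one (by linarith)]
      nlinarith
    have h1 : 0 < Real.pi * a * ((1 + τ * s) / (1 + s)) := by positivity
    have h2 : Real.pi * a * ((1 + τ * s) / (1 + s)) < Real.pi := by
      have : a * ((1 + τ * s) / (1 + s)) < 1 := by nlinarith
      calc Real.pi * a * ((1 + τ * s) / (1 + s)) = Real.pi * (a * ((1 + τ * s) / (1 + s))) := by ring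
        _ < Real.pi * 1 := mul_lt_mul_of_pos_left this hp
        _ = Real.pi := mul_one _
    constructor <;> linarith
  obtain ⟨z, h1, h2, h3, h4, h5⟩ := exists_chain C2 hX₁ hre₁ (hcos a ha ha1) (prt₁ x) hb₁ hg₁
  obtain ⟨y, k1, k2, k3, k4, k5⟩ := exists_chain C2 hX₂ hre₂ (hcos b hb hb1) (prt₂ x) hb₂ hg₂
  rw [← h3, ← k3] at hal
  have hx1 : (prt₁ x).1 = (prt₂ x).1 := rfl
  rw [hx1, ← k4] at h4
  have e1 : z (N + 2) = y 0 := by
    have h6 : (2 : ℂ) • (z (N + 2) - y 0) = 0 := by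
      have h7 : z (N + 2) - z 0 + (y (N + 2) - y 0) + (z 0 + z (N + 2) - (y 0 + y (N + 2))) = 0 := by
        rw [hal, h4, sub_self, add_zero]
      rw [← h7]
      module
    exact sub_eq_zero.1 ((smul_eq_zero.1 h6).resolve_left two_ne_zero)
  have e2 : y (N + 2) = z 0 := by
    rw [e1] at h4
    have : z 0 + y 0 = y (N + 2) + y 0 := by rw [h4]; abel
    exact (add_right_cancel this).symm
  set A : ℝ := Real.pi * a * ((1 + τ * s) / (1 + s)) / 2 with hA
  set B : ℝ := Real.pi * b * ((1 + τ * s) / (1 + s)) / 2 with hB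
  have hAB : 4 * A + 4 * B = 2 * Real.pi * (1 + τ * s) := by
    have : (1 + s) ≠ 0 := by positivity
    rw [hA, hB]
    calc 4 * (Real.pi * a * ((1 + τ * s) / (1 + s)) / 2) +
        4 * (Real.pi * b * ((1 + τ * s) / (1 + s)) / 2)
        = 2 * Real.pi * ((a + b) / (1 + s) * (1 + τ * s)) := by ring
      _ = 2 * Real.pi * (1 + τ * s) := by rw [hab, div_self this, one_mul]
  have hz0 : z 0 = 0 := by
    refine hN τ hτ hτ1 z (fun i => Complex.exp ((-(4 * A) : ℝ) * Complex.I) • y i) h1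
      (fun i hi => ?_) ?_ ?_
    · have e3 : ∀ E : ℂ, (1 / 2 : ℂ) • (E • y i + E • y (i + 1)) =
          E • ((1 / 2 : ℂ) • (y i + y (i + 1))) := by
        intro E
        rw [← smul_add, smul_comm]
      rw [e3, hX₂, ← smul_sub, k1 i hi, smul_comm]
    · rw [← e1, h2, smul_smul, ← Complex.exp_add]
      have : ((-(4 * A) : ℝ) * Complex.I + ((4 * A : ℝ) : ℂ) * Complex.I : ℂ) = 0 := by
        push_cast
        ring
      rw [this, Complex.exp_zero, one_smul]
    · rw [e2] at k2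
      rw [k2, smul_smul, ph, ← Complex.exp_add]
      have : (-(2 * Real.pi * (τ * s) : ℝ) * Complex.I + ((4 * B : ℝ) : ℂ) * Complex.I : ℂ) =
          (-(4 * A) : ℝ) * Complex.I + 2 * Real.pi * Complex.I := by
        have h8 : (-(2 * Real.pi * (τ * s)) + 4 * B : ℝ) = -(4 * A) + 2 * Real.pi := by linarith
        have h9 := congrArg (fun r : ℝ => (r : ℂ) * Complex.I) h8
        push_cast at h9 ⊢
        linear_combination h9
      rw [this, Complex.exp_add, Complex.exp_two_pi_mul_I, mul_one]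
  have hy0 : y 0 = 0 := by
    have h6 : ‖z N‖ = ‖z 0‖ := by
      have : ∀ i, i ≤ N → ‖z i‖ = ‖z 0‖ := by
        intro i
        induction i with
        | zero => exact fun _ => rfl
        | succ i ih =>
          intro hi
          rw [← ih (by omega)]
          refine norm_step (m := (1 / 2 : ℂ) • (z i + z (i + 1))) hre₁ (h1 i (by omega)) ?_
          rw [smul_smul]
          norm_num
      exact this N le_rfl
    rw [hz0, norm_zero] at h6
    rw [← e1, h2, norm_eq_zero.1 h6, smul_zero]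
  have p1 := h5 hz0
  have p2 := k5 hy0
  have q1 : x.1 = 0 := congrArg Prod.fst p1
  have q2 : x.2.1 = 0 := congrArg Prod.snd p1
  have q3 : x.2.2 = 0 := congrArg Prod.snd p2
  exact Prod.ext q1 (Prod.ext q2 q3)

end

end Vale.Agent.P209.H710.Nec
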