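import Vale.Agent.P209.H710.Nec.Asm

/-!
# P209, necessity: the abstract two-ball theorem
-/

namespace Vale.Agent.P209.H710.Nec

noncomputable section

open Set Metric

universe u

variable {V : Type u} [NormedAddCommGroup V] [InnerProductSpace ℂ V] [FiniteDimensional ℂ V]

/-- The rotation parameter for one ball. -/
def kap (a τ : ℝ) : ℝ := Real.tan (Real.pi * a * τ / 2)

/-- The rotation parameter for two balls. -/
def kapS (a s τ : ℝ) : ℝ := Real.tan (Real.pi * a * ((1 + τ * s) / (1 + s)) / 2)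

theorem kap_mem {a τ : ℝ} (ha : 0 < a) (ha1 : a < 1) (h0 : 0 < τ) (h1 : τ ≤ 1) :
    Real.pi * a * τ / 2 ∈ Ioo (-(Real.pi / 2)) (Real.pi / 2) := by
  have hp := Real.pi_pos
  have h4 : 0 < Real.pi * a * τ := by positivity
  have h5 : Real.pi * a * τ < Real.pi := by
    have : a * τ < 1 := by nlinarith
    calc Real.pi * a * τ = Real.pi * (a * τ) := by ring
      _ < Real.pi * 1 := mul_lt_mul_of_pos_left this hp
      _ = Real.pi := mul_one _
  constructor <;> linarith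

theorem continuousOn_kap {a τ₀ : ℝ} (ha : 0 < a) (ha1 : a < 1) (h0 : 0 < τ₀) :
    ContinuousOn (kap a) (Icc τ₀ 1) := by
  unfold kap
  exact Real.continuousOn_tan_Ioo.comp (by fun_prop)
    fun τ hτ => kap_mem ha ha1 (h0.trans_le hτ.1) hτ.2

theorem continuousOn_kapS {a s τ₀ : ℝ} (ha : 0 < a) (ha1 : a < 1) (hs : 0 < s) (h0 : 0 < τ₀) :
    ContinuousOn (kapS a s) (Icc τ₀ 1) := by
  unfold kapS
  refine Real.continuousOn_tan_Ioo.comp (by fun_prop) fun τ hτ => ?_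
  have hτ0 : 0 < τ := h0.trans_le hτ.1
  have hτ1 := hτ.2
  refine kap_mem ha ha1 (by positivity) ?_
  rw [div_le_one (by linarith)]
  nlinarith

theorem contOn_path {T : Type*} [TopologicalSpace T] {F : ℝ → ℝ → T → ℝ}
    {κ : ℝ → ℝ} {τ₀ : ℝ} (h2 : Continuous fun q : (ℝ × ℝ) × T => F q.1.1 q.1.2 q.2)
    (hκ : ContinuousOn κ (Icc τ₀ 1)) (S : Set T)  :
    ContinuousOn (fun q : ℝ × T => F q.1 (κ q.1) q.2) (Icc τ₀ 1 ×ˢ S) := by
  have h4 : ContinuousOn (fun q : ℝ × T => κ q.1) (Icc τ₀ 1 ×ˢ S) :=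
    hκ.comp continuous_fst.continuousOn (fun q hq => (Set.mem_prod.1 hq).1)
  have h3 : ContinuousOn (fun q : ℝ × T => ((q.1, κ q.1), q.2)) (Icc τ₀ 1 ×ˢ S) :=
    (continuous_fst.continuousOn.prodMk h4).prodMk continuous_snd.continuousOn
  exact h2.comp_continuousOn h3

omit [FiniteDimensional ℂ V] in
/-- Continuity of `FF` along a path. -/
theorem continuousOn_FFp {G : V → ℝ} (hG : Continuous G) {N M : ℕ} {κ : ℝ → ℝ} {τ₀ : ℝ}
    (hκ : ContinuousOn κ (Icc τ₀ 1)) {T : Type*} [TopologicalSpace T] {p : T → W V M}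
    (hp : Continuous p) (S : Set T) :
    ContinuousOn (fun q : ℝ × T => FF (stp N G q.1 (κ q.1)) (p q.2)) (Icc τ₀ 1 ×ˢ S) := by
  have h1 : ∀ j, Continuous fun q : ((ℝ × ℝ) × T) × V => stp N G q.1.1.1 q.1.1.2 j q.2 := by
    intro j
    have h4 : Continuous fun q : ((ℝ × ℝ) × T) × V => (q.1.1.1, q.1.1.2, q.2) := by fun_prop
    exact (continuous_stp (N := N) hG j).comp h4
  have h2 : Continuous fun q : (ℝ × ℝ) × T => FF (stp N G q.1.1 q.1.2) (p q.2) :=
    continuous_FF (f := fun q : (ℝ × ℝ) × T => stp N G q.1.1 q.1.2) (x := fun q => p q.2)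
      (hp.comp continuous_snd) h1
  exact contOn_path (F := fun τ κ t => FF (stp N G τ κ) (p t)) h2 hκ S

theorem idx_single (C1 : C1_statement.{u}) (C2 : C2_statement.{u}) {l : V →L[ℂ] ℂ} {Om : Set V}
    {c : ℝ} (A : BallHam l Om c) {a : ℝ} (ha : 0 < a) (ha1 : a < 1) {N : ℕ}
    (hN : NoChain A.X (fun _ => 0) a N) {τ₀ : ℝ} (h0 : 0 < τ₀) (h1 : τ₀ ≤ 1) {k : ℕ}
    (hk : Idx {x : W V (N + 1) | FF (stp N A.G τ₀ (kap a τ₀)) x < 0} k) :
    Idx {x : W V (N + 1) | FF (stp N A.G 1 (kap a 1)) x < 0} k := by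
  refine Idx.of_oddMap ?_ hk
  exact oddMap_FF C1 (M := N + 1) (f := fun τ => stp N A.G τ (kap a τ))
    (X := fun τ => stX N A.X τ (kap a τ)) h1 (fun τ _ j z => hasFDerivAt_stp A.hG j z)
    (fun τ _ j c z => stp_real_smul A.G_smul j c z)
    (continuousOn_FFp A.continuous_G (continuousOn_kap ha ha1 h0) continuous_id _)
    (fun τ _ j => (continuous_stX A.continuous_X j).comp
      (continuous_const.prodMk (continuous_const.prodMk continuous_id)))
    (fun τ hτ x e1 e2 e3 =>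
      eq_zero_of_crit C2 A.X_smul A.re_inner hN (h0.trans_le hτ.1) hτ.2 ha ha1 x e1 e2 e3)

theorem idx_sum (C1 : C1_statement.{u}) (C2 : C2_statement.{u}) {l : V →L[ℂ] ℂ} {Om₁ Om₂ : Set V}
    {c₁ c₂ : ℝ} (A : BallHam l Om₁ c₁) (B : BallHam l Om₂ c₂) {a b s : ℝ} (ha : 0 < a)
    (ha1 : a < 1) (hb : 0 < b) (hb1 : b < 1) (hs : 0 < s) (hab : a + b = 1 + s) {N : ℕ}
    (hN : NoChain A.X B.X s N) {τ₀ : ℝ} (h0 : 0 < τ₀) (h1 : τ₀ ≤ 1) {k : ℕ}
    (hk : Idx {x : WS V (N + 1) | FF (stp N A.G 1 (kapS a s 1)) (prt₁ x) +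
      FF (stp N B.G 1 (kapS b s 1)) (prt₂ x) < 0} k) :
    Idx {x : WS V (N + 1) | FF (stp N A.G τ₀ (kapS a s τ₀)) (prt₁ x) +
      FF (stp N B.G τ₀ (kapS b s τ₀)) (prt₂ x) < 0} k := by
  refine Idx.of_oddMap ?_ hk
  have hc₁ := continuousOn_FFp (N := N) A.continuous_G (continuousOn_kapS (s := s) ha ha1 hs h0)
    (prL₁ V (N + 1)).continuous (sphere 0 1)
  have hc₂ := continuousOn_FFp (N := N) B.continuous_G (continuousOn_kapS (s := s) hb hb1 hs h0)
    (prL₂ V (N + 1)).continuous (sphere 0 1)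
  exact oddMap_FFS C1 (M := N + 1) (f₁ := fun τ => stp N A.G τ (kapS a s τ))
    (f₂ := fun τ => stp N B.G τ (kapS b s τ))
    (X₁ := fun τ => stX N A.X τ (kapS a s τ)) (X₂ := fun τ => stX N B.X τ (kapS b s τ)) h1
    (fun τ _ j z => hasFDerivAt_stp A.hG j z) (fun τ _ j z => hasFDerivAt_stp B.hG j z)
    (fun τ _ j c z => stp_real_smul A.G_smul j c z)
    (fun τ _ j c z => stp_real_smul B.G_smul j c z)
    (hc₁.add hc₂)
    (fun τ _ j => (continuous_stX A.continuous_X j).comp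
      (continuous_const.prodMk (continuous_const.prodMk continuous_id)))
    (fun τ _ j => (continuous_stX B.continuous_X j).comp
      (continuous_const.prodMk (continuous_const.prodMk continuous_id)))
    (fun τ hτ x e1 e2 e3 e4 e5 =>
      eq_zero_of_crit₂ C2 A.X_smul B.X_smul A.re_inner B.re_inner hN (h0.trans_le hτ.1) hτ.2 hs
        ha ha1 hb hb1 hab x e1 e2 e3 e4 e5)

/-! ### No chains -/

omit [FiniteDimensional ℂ V] in
/-- Row E for one ball. -/
theorem noChain_single [FiniteDimensional ℂ V] (E : E_statement.{u}) {l : V →L[ℂ] ℂ} {Om : Set V}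
    {c : ℝ} (A : BallHam l Om c) {a : ℝ} (ha : 0 < a) (hac : a < c) (hc : c < 1) :
    ∃ N₀ : ℕ, ∀ N ≥ N₀, 0 < N → NoChain A.X (fun _ => 0) a N := by
  refine E V A.X (fun _ => 0) (max A.K 0) a ha (hac.trans hc)
    (fun z w => (A.hX z w).trans (mul_le_mul_of_nonneg_right (le_max_left _ _) (norm_nonneg _)))
    (fun z w => ?_) A.X_smul (fun a z => (smul_zero a).symm) A.re_inner (fun z => ?_)
    (fun z hz => ?_) (fun z hz τ h0 h1 => ?_)
  · rw [sub_zero, norm_zero]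
    positivity
  · rw [inner_zero_left, Complex.zero_re]
  · rw [add_zero]
    exact A.crit z hz a ha hac
  · obtain ⟨Y, y1, y2, -, y4⟩ := A.flow z hz τ h0 h1
    refine ⟨Y, fun _ => Y 1, y1, rfl, y2, fun t _ => ?_, y4 a ha hac⟩
    rw [smul_zero]
    exact hasDerivWithinAt_const _ _ _

omit [FiniteDimensional ℂ V] in
/-- Row E for two balls. -/
theorem noChain_sum [FiniteDimensional ℂ V] (E : E_statement.{u}) {l : V →L[ℂ] ℂ}
    {Om₁ Om₂ : Set V} {c₁ c₂ : ℝ} (A : BallHam l Om₁ c₁) (B : BallHam l Om₂ c₂)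
    (hd : Disjoint Om₁ Om₂) {s : ℝ} (hs : 0 < s) (hs₁ : s < c₁) (hs₂ : s < c₂) (hc : c₁ < 1) :
    ∃ N₀ : ℕ, ∀ N ≥ N₀, 0 < N → NoChain A.X B.X s N := by
  refine E V A.X B.X (max A.K B.K) s hs (hs₁.trans hc)
    (fun z w => (A.hX z w).trans (mul_le_mul_of_nonneg_right (le_max_left _ _) (norm_nonneg _)))
    (fun z w => (B.hX z w).trans (mul_le_mul_of_nonneg_right (le_max_right _ _) (norm_nonneg _)))
    A.X_smul B.X_smul A.re_inner B.re_inner (fun z hz => ?_) (fun z hz τ h0 h1 => ?_)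
  · by_cases hz1 : z ∈ Om₁
    · rw [B.X_off z (Set.disjoint_left.1 hd hz1), add_zero]
      exact A.crit z hz s hs hs₁
    · rw [A.X_off z hz1, zero_add]
      exact B.crit z hz s hs hs₂
  · by_cases hz1 : z ∈ Om₁
    · obtain ⟨Y, y1, y2, y3, y4⟩ := A.flow z hz τ h0 h1
      refine ⟨Y, fun _ => Y 1, y1, rfl, y2, fun t _ => ?_, y4 s hs hs₁⟩
      rw [B.X_off _ (Set.disjoint_left.1 hd (y3 hz1)), smul_zero]
      exact hasDerivWithinAt_const _ _ _
    · obtain ⟨Y, y1, y2, -, y4⟩ := B.flow z hz τ h0 h1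
      refine ⟨fun _ => z, Y, rfl, y1, fun t _ => ?_, y2, y4 s hs hs₂⟩
      rw [A.X_off _ hz1, smul_zero]
      exact hasDerivWithinAt_const _ _ _

/-! ### The theorem -/

omit [FiniteDimensional ℂ V] in
theorem stp_even {N : ℕ} {l : V →L[ℂ] ℂ} {Om : Set V} {c : ℝ} (A : BallHam l Om c) {τ κ : ℝ}
    (x : W V (N + 1)) : FF (stp N A.G τ κ) (-x) = FF (stp N A.G τ κ) x := by
  have := FF_smul (f := stp N A.G τ κ) (fun j c z => stp_real_smul A.G_smul j c z) (-1) x
  rw [neg_one_smul] at this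
  rw [this]
  ring

theorem F (A1 : A1_statement.{u}) (A2 : A2_statement.{u}) (A3 : A3_statement.{u})
    (C1 : C1_statement.{u}) (C2 : C2_statement.{u}) (D1 : D1_statement.{u})
    (D2 : D2_statement.{u}) (E : E_statement.{u}) : F_statement.{u} := by
  intro V _ _ _ l Om₁ Om₂ c₁ c₂ A B hl hd hc₁ hc₂ hc
  have hfin : FiniteDimensional ℝ V := FiniteDimensional.complexToReal V
  -- the constants
  have hc₁0 : 0 < c₁ := by linarith
  have hc₂0 : 0 < c₂ := by linarith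
  obtain ⟨s, hs0, hs⟩ : ∃ s : ℝ, 0 < s ∧ s < min (min c₁ c₂) (c₁ + c₂ - 1) :=
    exists_between (lt_min (lt_min hc₁0 hc₂0) (by linarith))
  have hs₁ : s < c₁ := hs.trans_le ((min_le_left _ _).trans (min_le_left _ _))
  have hs₂ : s < c₂ := hs.trans_le ((min_le_left _ _).trans (min_le_right _ _))
  have hs₃ : s < c₁ + c₂ - 1 := hs.trans_le (min_le_right _ _)
  have hlam : (1 + s) / (c₁ + c₂) < 1 := by
    rw [div_lt_one (by linarith)]
    linarith
  have hlam0 : 0 < (1 + s) / (c₁ + c₂) := by positivity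
  set a : ℝ := (1 + s) / (c₁ + c₂) * c₁ with ha
  set b : ℝ := (1 + s) / (c₁ + c₂) * c₂ with hb
  have ha0 : 0 < a := by positivity
  have hb0 : 0 < b := by positivity
  have hac : a < c₁ := by
    rw [ha]
    calc (1 + s) / (c₁ + c₂) * c₁ < 1 * c₁ := mul_lt_mul_of_pos_right hlam hc₁0
      _ = c₁ := one_mul _
  have hbc : b < c₂ := by
    rw [hb]
    calc (1 + s) / (c₁ + c₂) * c₂ < 1 * c₂ := mul_lt_mul_of_pos_right hlam hc₂0
      _ = c₂ := one_mul _
  have hab : a + b = 1 + s := by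
    rw [ha, hb, ← mul_add, div_mul_cancel₀]
    positivity
  -- the number of steps
  obtain ⟨N₁, hN₁⟩ := noChain_single E A ha0 hac hc₁
  obtain ⟨N₂, hN₂⟩ := noChain_single E B hb0 hbc hc₂
  obtain ⟨N₃, hN₃⟩ := noChain_sum E A B hd hs0 hs₁ hs₂ hc₁
  set N : ℕ := N₁ + N₂ + N₃ + 1 with hN
  have hNpos : 0 < N := by omega
  have nc₁ := hN₁ N (by omega) hNpos
  have nc₂ := hN₂ N (by omega) hNpos
  have nc₃ := hN₃ N (by omega) hNpos
  -- dimensions
  set d : ℕ := Module.finrank ℝ V with hdd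
  have hV : ∃ z : V, l z ≠ 0 := by
    by_contra hcon
    push Not at hcon
    exact hl (ContinuousLinearMap.ext hcon)
  have hd2 : 2 ≤ d := by
    obtain ⟨z, hz⟩ := hV
    have h1 : 0 < Module.finrank ℂ V := by
      rw [Module.finrank_pos_iff_exists_ne_zero]
      exact ⟨z, fun h => hz (by rw [h, map_zero])⟩
    rw [hdd, finrank_real_of_complex]
    omega
  have hfW : Module.finrank ℝ (W V (N + 1)) = d + ((N + 1) * d + (N + 1) * d) := by
    rw [Module.finrank_prod, Module.finrank_prod, Module.finrank_pi_fintype]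
    simp [hdd]
  -- the two balls
  have key : ∀ (Om : Set V) (c : ℝ) (A : BallHam l Om c) (a : ℝ), 0 < a → a < c → c < 1 →
      NoChain A.X (fun _ => 0) a N →
      Idx {x : W V (N + 1) | FF (stp N A.G 1 (kap a 1)) x < 0} ((N + 1) * d + (d - 2)) := by
    intro Om c A a ha hac hc nc
    obtain ⟨τ₀, t0, t1, E₁, e1, e2⟩ := D1 V l Om c A a N ha hac hc hNpos
    refine idx_single C1 C2 A ha (hac.trans hc) nc t0 t1 ?_
    refine A2 (W V (N + 1)) _ E₁ _ (fun x hx hxE => ?_) ?_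
    · have h3 : x ≠ 0 := by
        rintro rfl
        have h4 := FF_smul (f := stp N A.G τ₀ (kap a τ₀))
          (fun j c z => stp_real_smul A.G_smul j c z) 0 (0 : W V (N + 1))
        rw [zero_smul] at h4
        have h5 : FF (stp N A.G τ₀ (kap a τ₀)) (0 : W V (N + 1)) < 0 := hx
        rw [h4] at h5
        norm_num at h5
      have h4 := e2 x hxE h3
      have h5 : FF (stp N A.G τ₀ (kap a τ₀)) x < 0 := hx
      exact absurd h5 (not_lt.2 h4.le)
    · rw [hfW, e1, ← hdd]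
      omega
  have i₁ := key Om₁ c₁ A a ha0 hac hc₁ nc₁
  have i₂ := key Om₂ c₂ B b hb0 hbc hc₂ nc₂
  -- the sum
  have hcont : ∀ (Om : Set V) (c : ℝ) (A : BallHam l Om c) (κ : ℝ),
      Continuous (FF (M := N + 1) (stp N A.G 1 κ)) := by
    intro Om c A κ
    exact continuous_FF (f := fun _ => stp N A.G 1 κ) (x := fun x : W V (N + 1) => x) continuous_id
      fun j => (continuous_stp (N := N) A.continuous_G j).comp
        (continuous_const.prodMk (continuous_const.prodMk continuous_snd))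
  have i₃ := A3 (WS V (N + 1)) (W V (N + 1)) (W V (N + 1)) (prL₁ V (N + 1)) (prL₂ V (N + 1))
    (FF (stp N A.G 1 (kap a 1))) (FF (stp N B.G 1 (kap b 1))) _ _ (hcont _ _ A _) (hcont _ _ B _)
    (fun x => stp_even A x) (fun x => stp_even B x) i₁ i₂
  have hk : ∀ a : ℝ, kap a 1 = kapS a s 1 := by
    intro a
    unfold kap kapS
    rw [one_mul, div_self (by positivity : (1 + s) ≠ 0)]
  rw [hk a, hk b] at i₃
  obtain ⟨τ₀, t0, t1, E₂, e1, e2⟩ := D2 V l Om₁ Om₂ c₁ c₂ A B a b s N hl ha0 (hac.trans hc₁) hb0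
    (hbc.trans hc₂) hs0 hab hNpos
  have i₄ := idx_sum C1 C2 A B ha0 (hac.trans hc₁) hb0 (hbc.trans hc₂) hs0 hab nc₃ t0 t1 i₃
  have i₅ := A1 (WS V (N + 1)) _ E₂ _ e2 i₄
  have h6 : 2 * (N + 1) * d = (N + 1) * d + (N + 1) * d := by ring
  rw [← hdd, h6] at e1
  omega

end

end Vale.Agent.P209.H710.Nec
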